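import Vale.Agent.P050H.Samp

/-! # P050: Sidorenko's inequality for log-supermodular kernels on products of linear orders -/

open Finset MeasureTheory

namespace Vale.Agent.P050

theorem integral_comp_mp {Ω Ω' : Type*} [MeasurableSpace Ω] [MeasurableSpace Ω'] {P : Measure Ω}
    {Q : Measure Ω'} {φ : Ω → Ω'} (h : MeasurePreserving φ P Q) {f : Ω' → ℝ}
    (hf : Measurable f) : ∫ x, f (φ x) ∂P = ∫ y, f y ∂Q := by
  rw [← h.map_eq, integral_map h.measurable.aemeasurable]
  exact hf.aestronglyMeasurable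

theorem integrable_of_bdd {Ω : Type*} [MeasurableSpace Ω] {P : Measure Ω} [IsProbabilityMeasure P]
    {f : Ω → ℝ} (hf : Measurable f) (C : ℝ) (h0 : ∀ x, 0 ≤ f x) (hC : ∀ x, f x ≤ C) :
    Integrable f P := by
  refine Integrable.of_bound hf.aestronglyMeasurable C (Filter.Eventually.of_forall fun x => ?_)
  rw [Real.norm_eq_abs, abs_of_nonneg (h0 x)]
  exact hC x

theorem jensen_pow {Ω : Type*} [MeasurableSpace Ω] {P : Measure Ω} [IsProbabilityMeasure P]
    {f : Ω → ℝ} (hf : Measurable f) (C : ℝ) (h0 : ∀ x, 0 ≤ f x) (hC : ∀ x, f x ≤ C) (m : ℕ) :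
    (∫ x, f x ∂P) ^ m ≤ ∫ x, f x ^ m ∂P := by
  have h1 := ConvexOn.map_integral_le (μ := P) (f := f) (convexOn_pow m)
    (continuous_pow m).continuousOn isClosed_Ici (Filter.Eventually.of_forall fun x => h0 x)
    (integrable_of_bdd hf C h0 hC)
    (integrable_of_bdd (hf.pow_const m) (C ^ m) (fun x => pow_nonneg (h0 x) m)
      (fun x => pow_le_pow_left₀ (h0 x) (hC x) m))
  exact h1

theorem sum_ind {α : Type*} [Fintype α] [DecidableEq α] (s : Finset α) :
    ∑ x, (if x ∈ s then (1 : ℝ) else 0) = s.card := by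
  rw [Finset.sum_ite_mem, univ_inter, sum_const, nsmul_eq_mul, mul_one]

theorem sum_ind_left {α β : Type*} [Fintype α] [Fintype β] [DecidableEq α] (s : Finset α) :
    ∑ c : α × β, (if c.1 ∈ s then (1 : ℝ) else 0) = s.card * Fintype.card β := by
  rw [Fintype.sum_prod_type_right]
  simp only [sum_ind, sum_const, card_univ, nsmul_eq_mul]
  ring

theorem sum_ind_right {α β : Type*} [Fintype α] [Fintype β] [DecidableEq β] (s : Finset β) :
    ∑ c : α × β, (if c.2 ∈ s then (1 : ℝ) else 0) = Fintype.card α * s.card := by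
  rw [Fintype.sum_prod_type]
  simp only [sum_ind, sum_const, card_univ, nsmul_eq_mul]

section

variable {S R : Type*} [LinearOrder S] [MeasurableSpace S] [LinearOrder R] [MeasurableSpace R]
  {A B I J : Type*} [Fintype A] [DecidableEq A] [Fintype B] [DecidableEq B]
  [Fintype I] [DecidableEq I] [Fintype J] [DecidableEq J]

theorem pt_measurable {n : ℕ} (p : I → Fin n) :
    Measurable (fun ξ : Fin n × I → S => pt ξ p) :=
  measurable_pi_lambda _ fun i => measurable_pi_apply (p i, i)

theorem cont_step {n : ℕ} (hn : 0 < n) (μ : I → Measure S) (ν : J → Measure R)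
    [∀ i, IsProbabilityMeasure (μ i)] [∀ j, IsProbabilityMeasure (ν j)]
    {W : (I → S) → (J → R) → ℝ} (hm : Measurable (fun z : (I → S) × (J → R) => W z.1 z.2))
    (h0 : ∀ x y, 0 ≤ W x y) {C : ℝ} (hC : ∀ x y, W x y ≤ C)
    (hW : ∀ x x' y y', W x y * W x' y' ≤ W (x ⊓ x') (y ⊓ y') * W (x ⊔ x') (y ⊔ y'))
    (E : Finset (A × B)) :
    (∫ z, W z.1 z.2 ∂((Measure.pi μ).prod (Measure.pi ν))) ^ E.card ≤
      (∫ z : (A → I → S) × (B → J → R), ∏ e ∈ E, W (z.1 e.1) (z.2 e.2)
        ∂((Measure.pi (fun _ : A => Measure.pi μ)).prod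
          (Measure.pi (fun _ : B => Measure.pi ν)))) +
      C ^ E.card * (Fintype.card A * Fintype.card A * Fintype.card I +
        Fintype.card B * Fintype.card B * Fintype.card J) / n := by
  classical
  have : Nonempty (Fin n) := ⟨⟨0, hn⟩⟩
  have hneI : Nonempty (I → S) := nonempty_of_isProbabilityMeasure (Measure.pi μ)
  have hneJ : Nonempty (J → R) := nonempty_of_isProbabilityMeasure (Measure.pi ν)
  have hC0 : 0 ≤ C := (h0 hneI.some hneJ.some).trans (hC _ _)
  set PP := (Measure.pi (fun s : Fin n × I => μ s.2)).prod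
    (Measure.pi (fun s : Fin n × J => ν s.2)) with hPP
  set T := ∫ z : (A → I → S) × (B → J → R), ∏ e ∈ E, W (z.1 e.1) (z.2 e.2)
        ∂((Measure.pi (fun _ : A => Measure.pi μ)).prod
          (Measure.pi (fun _ : B => Measure.pi ν))) with hT
  have hT0 : 0 ≤ T := integral_nonneg fun z => prod_nonneg fun e _ => h0 _ _
  set SS := ∫ z, W z.1 z.2 ∂((Measure.pi μ).prod (Measure.pi ν)) with hSS
  have cX : (0 : ℝ) < Fintype.card (I → Fin n) := by exact_mod_cast Fintype.card_pos
  have cY : (0 : ℝ) < Fintype.card (J → Fin n) := by exact_mod_cast Fintype.card_pos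
  have cA : (0 : ℝ) < Fintype.card (A → I → Fin n) := by exact_mod_cast Fintype.card_pos
  have cB : (0 : ℝ) < Fintype.card (B → J → Fin n) := by exact_mod_cast Fintype.card_pos
  have hmpq : ∀ (p : I → Fin n) (q : J → Fin n), Measurable
      (fun ω : (Fin n × I → S) × (Fin n × J → R) => W (pt ω.1 p) (pt ω.2 q)) := fun p q =>
    hm.comp (((pt_measurable p).comp measurable_fst).prodMk
      ((pt_measurable q).comp measurable_snd))
  set g : (Fin n × I → S) × (Fin n × J → R) → ℝ := fun ω =>
    (((Fintype.card (I → Fin n) : ℝ))⁻¹ * ((Fintype.card (J → Fin n) : ℝ))⁻¹) *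
      ∑ p : I → Fin n, ∑ q : J → Fin n, W (pt ω.1 p) (pt ω.2 q) with hg
  have hgm : Measurable g :=
    (Finset.measurable_sum _ fun p _ => Finset.measurable_sum _ fun q _ => hmpq p q).const_mul _
  have hg0 : ∀ ω, 0 ≤ g ω := fun ω => mul_nonneg (by positivity)
    (sum_nonneg fun p _ => sum_nonneg fun q _ => h0 _ _)
  have hgC : ∀ ω, g ω ≤ C := by
    intro ω
    have h1 : ∑ p : I → Fin n, ∑ q : J → Fin n, W (pt ω.1 p) (pt ω.2 q) ≤
        ∑ _p : I → Fin n, ∑ _q : J → Fin n, C :=
      sum_le_sum fun p _ => sum_le_sum fun q _ => hC _ _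
    simp only [sum_const, card_univ, nsmul_eq_mul] at h1
    calc g ω ≤ (((Fintype.card (I → Fin n) : ℝ))⁻¹ * ((Fintype.card (J → Fin n) : ℝ))⁻¹) *
        ((Fintype.card (I → Fin n) : ℝ) * ((Fintype.card (J → Fin n) : ℝ) * C)) :=
          mul_le_mul_of_nonneg_left h1 (by positivity)
      _ = C := by field_simp
  have hgint : ∫ ω, g ω ∂PP = SS := by
    rw [hg, integral_const_mul, integral_finsetSum]
    · have h1 : ∀ p : I → Fin n, ∫ ω, ∑ q : J → Fin n, W (pt ω.1 p) (pt ω.2 q) ∂PP =
          Fintype.card (J → Fin n) * SS := by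
        intro p
        rw [integral_finsetSum _ fun q _ =>
          integrable_of_bdd (hmpq p q) C (fun _ => h0 _ _) (fun _ => hC _ _)]
        have h2 : ∀ q : J → Fin n, ∫ ω, W (pt ω.1 p) (pt ω.2 q) ∂PP = SS := fun q =>
          integral_comp_mp ((mp_point μ p).prod (mp_point ν q)) hm
        simp only [h2, sum_const, card_univ, nsmul_eq_mul]
      simp only [h1, sum_const, card_univ, nsmul_eq_mul]
      field_simp
    · intro p _
      exact integrable_finsetSum _ fun q _ =>
        integrable_of_bdd (hmpq p q) C (fun _ => h0 _ _) (fun _ => hC _ _)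
  have hmc : ∀ c : (A → I → Fin n) × (B → J → Fin n), Measurable
      (fun ω : (Fin n × I → S) × (Fin n × J → R) =>
        ∏ e ∈ E, W (pt ω.1 (c.1 e.1)) (pt ω.2 (c.2 e.2))) := fun c =>
    Finset.measurable_prod _ fun e _ => hmpq _ _
  have hcC : ∀ (c : (A → I → Fin n) × (B → J → Fin n))
      (ω : (Fin n × I → S) × (Fin n × J → R)),
      ∏ e ∈ E, W (pt ω.1 (c.1 e.1)) (pt ω.2 (c.2 e.2)) ≤ C ^ E.card := by
    intro c ω
    rw [← prod_const]
    exact prod_le_prod (fun e _ => h0 _ _) fun e _ => hC _ _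
  have hc0 : ∀ (c : (A → I → Fin n) × (B → J → Fin n))
      (ω : (Fin n × I → S) × (Fin n × J → R)),
      0 ≤ ∏ e ∈ E, W (pt ω.1 (c.1 e.1)) (pt ω.2 (c.2 e.2)) := fun c ω =>
    prod_nonneg fun e _ => h0 _ _
  have hci : ∀ c : (A → I → Fin n) × (B → J → Fin n), Integrable
      (fun ω : (Fin n × I → S) × (Fin n × J → R) =>
        ∏ e ∈ E, W (pt ω.1 (c.1 e.1)) (pt ω.2 (c.2 e.2))) PP := fun c =>
    integrable_of_bdd (hmc c) _ (hc0 c) (hcC c)
  have hgood : ∀ c : (A → I → Fin n) × (B → J → Fin n),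
      (∀ i, Function.Injective (fun a => c.1 a i)) → (∀ j, Function.Injective (fun b => c.2 b j)) →
      ∫ ω, ∏ e ∈ E, W (pt ω.1 (c.1 e.1)) (pt ω.2 (c.2 e.2)) ∂PP = T := by
    intro c h1 h2
    have h3 := (mp_sample μ c.1 h1).prod (mp_sample ν c.2 h2)
    have h4 : Measurable (fun z : (A → I → S) × (B → J → R) =>
        ∏ e ∈ E, W (z.1 e.1) (z.2 e.2)) := by
      refine Finset.measurable_prod _ fun e _ => ?_
      have h5 : Measurable (fun z : (A → I → S) × (B → J → R) => (z.1 e.1, z.2 e.2)) :=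
        ((measurable_pi_apply e.1).comp measurable_fst).prodMk
          ((measurable_pi_apply e.2).comp measurable_snd)
      exact hm.comp h5
    exact integral_comp_mp h3 h4
  have hbad : ∀ c : (A → I → Fin n) × (B → J → Fin n),
      ∫ ω, ∏ e ∈ E, W (pt ω.1 (c.1 e.1)) (pt ω.2 (c.2 e.2)) ∂PP ≤ C ^ E.card := by
    intro c
    calc ∫ ω, ∏ e ∈ E, W (pt ω.1 (c.1 e.1)) (pt ω.2 (c.2 e.2)) ∂PP ≤ ∫ _ω, C ^ E.card ∂PP :=
          integral_mono (hci c) (integrable_const _) (hcC c)
      _ = C ^ E.card := by simp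
  -- main chain
  have step1 : SS ^ E.card ≤ ((Fintype.card (A → I → Fin n) : ℝ))⁻¹ *
      ((Fintype.card (B → J → Fin n) : ℝ))⁻¹ * ∑ c : (A → I → Fin n) × (B → J → Fin n),
      ∫ ω, ∏ e ∈ E, W (pt ω.1 (c.1 e.1)) (pt ω.2 (c.2 e.2)) ∂PP := by
    rw [← hgint]
    refine (jensen_pow hgm C hg0 hgC E.card).trans ?_
    rw [← integral_finsetSum _ fun c _ => hci c, ← integral_const_mul]
    refine integral_mono (integrable_of_bdd (hgm.pow_const _) (C ^ E.card)
      (fun ω => pow_nonneg (hg0 ω) _) (fun ω => pow_le_pow_left₀ (hg0 ω) (hgC ω) _)) ?_ ?_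
    · exact (integrable_finsetSum _ fun c _ => hci c).const_mul _
    · intro ω
      exact grid_ineq hn h0 hW E ω.1 ω.2
  set badA := univ.filter (fun c : A → I → Fin n =>
    ¬ ∀ i, Function.Injective (fun a => c a i)) with hbA
  set badB := univ.filter (fun c : B → J → Fin n =>
    ¬ ∀ i, Function.Injective (fun a => c a i)) with hbB
  have kA0 : n * badA.card ≤ (Fintype.card A * Fintype.card A * Fintype.card I) *
      Fintype.card (A → I → Fin n) := by
    have := card_bad (A := A) (I := I) (n := n)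
    convert this
  have kB0 : n * badB.card ≤ (Fintype.card B * Fintype.card B * Fintype.card J) *
      Fintype.card (B → J → Fin n) := by
    have := card_bad (A := B) (I := J) (n := n)
    convert this
  have kA : (n : ℝ) * badA.card ≤ (Fintype.card A * Fintype.card A * Fintype.card I) *
      Fintype.card (A → I → Fin n) := by exact_mod_cast kA0
  have kB : (n : ℝ) * badB.card ≤ (Fintype.card B * Fintype.card B * Fintype.card J) *
      Fintype.card (B → J → Fin n) := by exact_mod_cast kB0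
  have step2 : ∑ c : (A → I → Fin n) × (B → J → Fin n),
      ∫ ω, ∏ e ∈ E, W (pt ω.1 (c.1 e.1)) (pt ω.2 (c.2 e.2)) ∂PP ≤
      (Fintype.card (A → I → Fin n) : ℝ) * Fintype.card (B → J → Fin n) * T +
        C ^ E.card * (badA.card * Fintype.card (B → J → Fin n) +
          Fintype.card (A → I → Fin n) * badB.card) := by
    have h1 : ∀ c : (A → I → Fin n) × (B → J → Fin n),
        ∫ ω, ∏ e ∈ E, W (pt ω.1 (c.1 e.1)) (pt ω.2 (c.2 e.2)) ∂PP ≤
        T + C ^ E.card * ((if c.1 ∈ badA then 1 else 0) + (if c.2 ∈ badB then 1 else 0)) := by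
      intro c
      have hCE : 0 ≤ C ^ E.card := pow_nonneg hC0 _
      by_cases hA : c.1 ∈ badA
      · have h2 := hbad c
        rw [if_pos hA]
        split_ifs <;> nlinarith
      · by_cases hB : c.2 ∈ badB
        · have h2 := hbad c
          rw [if_pos hB, if_neg hA]
          nlinarith
        · rw [if_neg hA, if_neg hB]
          have h3 : ∀ i, Function.Injective (fun a => c.1 a i) := by
            by_contra h
            exact hA (mem_filter.mpr ⟨mem_univ _, h⟩)
          have h4 : ∀ i, Function.Injective (fun a => c.2 a i) := by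
            by_contra h
            exact hB (mem_filter.mpr ⟨mem_univ _, h⟩)
          rw [hgood c h3 h4]
          linarith
    refine (sum_le_sum fun c _ => h1 c).trans (le_of_eq ?_)
    rw [sum_add_distrib, ← mul_sum, sum_add_distrib]
    congr 1
    · rw [sum_const, card_univ, Fintype.card_prod, nsmul_eq_mul]
      push_cast
      ring
    · congr 1
      rw [sum_ind_left, sum_ind_right]
  have hn' : (0 : ℝ) < n := by exact_mod_cast hn
  refine step1.trans ((mul_le_mul_of_nonneg_left step2 (by positivity)).trans ?_)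
  have e1 : ((Fintype.card (A → I → Fin n) : ℝ))⁻¹ * ((Fintype.card (B → J → Fin n) : ℝ))⁻¹ *
      ((Fintype.card (A → I → Fin n) : ℝ) * Fintype.card (B → J → Fin n) * T +
        C ^ E.card * (badA.card * Fintype.card (B → J → Fin n) +
          Fintype.card (A → I → Fin n) * badB.card)) =
      T + C ^ E.card * (badA.card / Fintype.card (A → I → Fin n) +
        badB.card / Fintype.card (B → J → Fin n)) := by
    field_simp
  rw [e1]
  have e2 : (badA.card : ℝ) / Fintype.card (A → I → Fin n) ≤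
      (Fintype.card A * Fintype.card A * Fintype.card I) / n := by
    rw [div_le_div_iff₀ cA hn']
    linarith
  have e3 : (badB.card : ℝ) / Fintype.card (B → J → Fin n) ≤
      (Fintype.card B * Fintype.card B * Fintype.card J) / n := by
    rw [div_le_div_iff₀ cB hn']
    linarith
  have hCE : 0 ≤ C ^ E.card := pow_nonneg hC0 _
  have e4 := mul_le_mul_of_nonneg_left (add_le_add e2 e3) hCE
  rw [← add_div, ← mul_div_assoc] at e4
  linarith

/-- Sidorenko's inequality for log-supermodular kernels, product probability measures on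
finite-dimensional real spaces -/
theorem sidorenko_cont (μ : I → Measure S) (ν : J → Measure R)
    [∀ i, IsProbabilityMeasure (μ i)] [∀ j, IsProbabilityMeasure (ν j)]
    {W : (I → S) → (J → R) → ℝ} (hm : Measurable (fun z : (I → S) × (J → R) => W z.1 z.2))
    (h0 : ∀ x y, 0 ≤ W x y) {C : ℝ} (hC : ∀ x y, W x y ≤ C)
    (hW : ∀ x x' y y', W x y * W x' y' ≤ W (x ⊓ x') (y ⊓ y') * W (x ⊔ x') (y ⊔ y'))
    (E : Finset (A × B)) :
    (∫ z, W z.1 z.2 ∂((Measure.pi μ).prod (Measure.pi ν))) ^ E.card ≤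
      ∫ z : (A → I → S) × (B → J → R), ∏ e ∈ E, W (z.1 e.1) (z.2 e.2)
        ∂((Measure.pi (fun _ : A => Measure.pi μ)).prod
          (Measure.pi (fun _ : B => Measure.pi ν))) := by
  set T := ∫ z : (A → I → S) × (B → J → R), ∏ e ∈ E, W (z.1 e.1) (z.2 e.2)
        ∂((Measure.pi (fun _ : A => Measure.pi μ)).prod
          (Measure.pi (fun _ : B => Measure.pi ν))) with hT
  set D := C ^ E.card * (Fintype.card A * Fintype.card A * Fintype.card I +
        Fintype.card B * Fintype.card B * Fintype.card J) with hD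
  have h1 : ∀ n : ℕ, (∫ z, W z.1 z.2 ∂((Measure.pi μ).prod (Measure.pi ν))) ^ E.card ≤
      T + D * (1 / ((n : ℝ) + 1)) := by
    intro n
    have := cont_step (A := A) (B := B) (n := n + 1) (Nat.succ_pos n) μ ν hm h0 hC hW E
    rw [← hT] at this
    push_cast at this
    rw [mul_one_div]
    exact this
  have h2 : Filter.Tendsto (fun n : ℕ => T + D * (1 / ((n : ℝ) + 1))) Filter.atTop
      (nhds (T + D * 0)) :=
    (tendsto_one_div_add_atTop_nhds_zero_nat.const_mul D).const_add T
  rw [mul_zero, add_zero] at h2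
  exact ge_of_tendsto' h2 h1

end

end Vale.Agent.P050
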