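import Vale.Agent.P050H.Lat

/-! # P050: Sidorenko's inequality for log-supermodular kernels on finite distributive lattices -/

open Finset

namespace Vale.Agent.P050

theorem le_of_pow_le_poly {P Q : ℝ} (hP : 0 ≤ P) (C : ℕ)
    (h : ∀ k : ℕ, Q ^ k ≤ P ^ k * ((k : ℝ) + 1) ^ C) : Q ≤ P := by
  by_contra hlt
  rw [not_le] at hlt
  rcases hP.eq_or_lt with h0 | hP
  · have := h 1
    rw [← h0] at this
    simp at this
    linarith
  · set r := Q / P with hr
    have hr1 : 1 < r := (one_lt_div hP).mpr hlt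
    have h1 : ∀ k : ℕ, r ^ k ≤ ((k : ℝ) + 1) ^ C := by
      intro k
      rw [hr, div_pow, div_le_iff₀ (pow_pos hP k), mul_comm]
      exact h k
    have h2 := tendsto_pow_const_div_const_pow_of_one_lt C hr1
    have h3 := (Filter.tendsto_add_atTop_iff_nat 1).mpr h2
    have h4 : ∀ k : ℕ, 1 / r ≤ ((k + 1 : ℕ) : ℝ) ^ C / r ^ (k + 1) := by
      intro k
      rw [div_le_div_iff₀ (by linarith) (by positivity)]
      have := h1 k
      push_cast
      rw [pow_succ]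
      nlinarith [h1 k]
    have h5 := ge_of_tendsto' h3 h4
    have : 0 < 1 / r := by positivity
    linarith

section

variable {k : ℕ} {X Y : Type*}

/-- permanent kernel -/
noncomputable def perK (W : X → Y → ℝ) (s : Fin k → X) (t : Fin k → Y) : ℝ :=
  ∑ τ : Equiv.Perm (Fin k), ∏ i, W (s i) (t (τ i))

theorem perK_nonneg {W : X → Y → ℝ} (h0 : ∀ x y, 0 ≤ W x y) (s : Fin k → X) (t : Fin k → Y) :
    0 ≤ perK W s t := sum_nonneg fun _ _ => prod_nonneg fun _ _ => h0 _ _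

theorem perK_comp_left (W : X → Y → ℝ) (s : Fin k → X) (t : Fin k → Y)
    (ρ : Equiv.Perm (Fin k)) : perK W (s ∘ ρ) t = perK W s t := by
  unfold perK
  rw [← Equiv.sum_comp (Equiv.mulRight ρ) (fun τ => ∏ i, W ((s ∘ ρ) i) (t (τ i)))]
  refine sum_congr rfl fun τ _ => ?_
  rw [← Equiv.prod_comp ρ (fun i => W (s i) (t (τ i)))]
  rfl

theorem perK_comp_right (W : X → Y → ℝ) (s : Fin k → X) (t : Fin k → Y)
    (ρ : Equiv.Perm (Fin k)) : perK W s (t ∘ ρ) = perK W s t := by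
  unfold perK
  rw [← Equiv.sum_comp (Equiv.mulLeft ρ) (fun τ => ∏ i, W (s i) (t (τ i)))]
  rfl

theorem perK_weight (μ : X → ℝ) (ν : Y → ℝ) (W : X → Y → ℝ) (s : Fin k → X) (t : Fin k → Y) :
    perK (fun x y => μ x * ν y * W x y) s t = (∏ i, μ (s i)) * (∏ i, ν (t i)) * perK W s t := by
  unfold perK
  rw [mul_sum]
  refine sum_congr rfl fun τ _ => ?_
  rw [prod_mul_distrib, prod_mul_distrib, Equiv.prod_comp τ (fun i => ν (t i))]

theorem exists_perm_of_count [DecidableEq X] (s s' : Fin k → X)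
    (h : ∀ x, (univ.filter (fun i => s i = x)).card = (univ.filter (fun i => s' i = x)).card) :
    ∃ ρ : Equiv.Perm (Fin k), s' = s ∘ ρ := by
  have e : ∀ x, {i // s' i = x} ≃ {i // s i = x} := fun x =>
    Fintype.equivOfCardEq (by rw [Fintype.card_subtype, Fintype.card_subtype, h])
  refine ⟨Equiv.ofFiberEquiv e, ?_⟩
  funext i
  exact (Equiv.ofFiberEquiv_map e i).symm

theorem sum_prod_two [Fintype X] [DecidableEq X] [Fintype Y] [DecidableEq Y] (W : X → Y → ℝ) :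
    ∑ s : Fin k → X, ∑ t : Fin k → Y, ∏ i, W (s i) (t i) = (∑ x, ∑ y, W x y) ^ k := by
  have h1 : ∀ s : Fin k → X, ∑ t : Fin k → Y, ∏ i, W (s i) (t i) = ∏ i, ∑ y, W (s i) y := by
    intro s
    rw [Finset.prod_univ_sum, Fintype.piFinset_univ]
  simp only [h1]
  have h2 := Finset.prod_univ_sum (fun _ : Fin k => (univ : Finset X))
    (fun _ x => ∑ y, W x y)
  rw [Fintype.piFinset_univ] at h2
  rw [← h2, prod_const, card_univ, Fintype.card_fin]

theorem sum_perK [Fintype X] [DecidableEq X] [Fintype Y] [DecidableEq Y] (W : X → Y → ℝ) :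
    ∑ s : Fin k → X, ∑ t : Fin k → Y, perK W s t = (k.factorial : ℝ) * (∑ x, ∑ y, W x y) ^ k := by
  unfold perK
  have h1 : ∀ s : Fin k → X, ∑ t : Fin k → Y, ∑ τ : Equiv.Perm (Fin k), ∏ i, W (s i) (t (τ i)) =
      ∑ τ : Equiv.Perm (Fin k), ∑ t : Fin k → Y, ∏ i, W (s i) (t i) := by
    intro s
    rw [sum_comm]
    refine sum_congr rfl fun τ _ => ?_
    exact (Equiv.arrowCongr τ.symm (Equiv.refl Y)).sum_comp (fun t => ∏ i, W (s i) (t i))
  simp only [h1]
  rw [sum_comm]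
  simp only [sum_prod_two]
  rw [sum_const, card_univ, Fintype.card_perm, Fintype.card_fin, nsmul_eq_mul]

end

section Classes

variable {k : ℕ} {X : Type*} [Fintype X] [DecidableEq X]

/-- the type (vector of multiplicities) of a `k`-tuple -/
def ty (s : Fin k → X) (x : X) : Fin (k + 1) :=
  ⟨(univ.filter (fun i => s i = x)).card, by
    have := card_le_univ (univ.filter (fun i => s i = x))
    rw [Fintype.card_fin] at this
    omega⟩

/-- the tuples of a given type -/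
def cls (p : X → Fin (k + 1)) : Finset (Fin k → X) := univ.filter (fun s => ty s = p)

theorem exists_perm_of_ty {s s' : Fin k → X} (h : ty s = ty s') :
    ∃ ρ : Equiv.Perm (Fin k), s' = s ∘ ρ := by
  refine exists_perm_of_count s s' fun x => ?_
  have := congrFun h x
  exact congrArg Fin.val this

/-- mass of a class -/
def mass (μ : X → ℝ) (p : X → Fin (k + 1)) : ℝ := ∑ s ∈ cls p, ∏ i, μ (s i)

theorem sum_all (μ : X → ℝ) (h1 : ∑ x, μ x = 1) : ∑ s : Fin k → X, ∏ i, μ (s i) = 1 := by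
  have h2 := Finset.prod_univ_sum (fun _ : Fin k => (univ : Finset X)) (fun _ x => μ x)
  rw [Fintype.piFinset_univ] at h2
  rw [← h2]
  simp [h1]

theorem mass_nonneg {μ : X → ℝ} (μ0 : ∀ x, 0 ≤ μ x) (p : X → Fin (k + 1)) : 0 ≤ mass μ p :=
  sum_nonneg fun _ _ => prod_nonneg fun _ _ => μ0 _

theorem mass_le_one {μ : X → ℝ} (μ0 : ∀ x, 0 ≤ μ x) (h1 : ∑ x, μ x = 1) (p : X → Fin (k + 1)) :
    mass μ p ≤ 1 := by
  rw [← sum_all (k := k) μ h1]
  exact sum_le_sum_of_subset_of_nonneg (subset_univ _) fun _ _ _ => prod_nonneg fun _ _ => μ0 _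

end Classes

section Main

variable {A B I J : Type*} [Fintype A] [DecidableEq A] [Fintype B] [DecidableEq B]
  [Fintype I] [DecidableEq I] [Fintype J] [DecidableEq J]
  {X Y : Type*} [Lattice X] [Lattice Y] [Fintype X] [Fintype Y] [DecidableEq X] [DecidableEq Y]

theorem sum_perK_prod_le {k : ℕ}
    {φ : X → Finset I} (hφ : Function.Injective φ)
    (hinf : ∀ x y, φ (x ⊓ y) = φ x ⊓ φ y) (hsup : ∀ x y, φ (x ⊔ y) = φ x ⊔ φ y)
    {ψ : Y → Finset J} (hψ : Function.Injective ψ)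
    (hinf' : ∀ x y, ψ (x ⊓ y) = ψ x ⊓ ψ y) (hsup' : ∀ x y, ψ (x ⊔ y) = ψ x ⊔ ψ y)
    {μ : X → ℝ} {ν : Y → ℝ} {W : X → Y → ℝ} (μ0 : ∀ x, 0 ≤ μ x) (ν0 : ∀ y, 0 ≤ ν y)
    (h0 : ∀ x y, 0 ≤ W x y) (hμ : LSM μ) (hν : LSM ν)
    (hW : ∀ x x' y y', W x y * W x' y' ≤ W (x ⊓ x') (y ⊓ y') * W (x ⊔ x') (y ⊔ y'))
    (E : Finset (A × B)) :
    ∑ c : (A → Fin k → X) × (B → Fin k → Y), (∏ a, ∏ i, μ (c.1 a i)) * (∏ b, ∏ i, ν (c.2 b i)) *
        ∏ e ∈ E, perK W (c.1 e.1) (c.2 e.2) ≤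
      ((k.factorial : ℝ) ^ E.card) * (∑ c : (A → X) × (B → Y), (∏ a, μ (c.1 a)) *
        (∏ b, ν (c.2 b)) * ∏ e ∈ E, W (c.1 e.1) (c.2 e.2)) ^ k := by
  classical
  have h1 : ∀ c : (A → Fin k → X) × (B → Fin k → Y), ∏ e ∈ E, perK W (c.1 e.1) (c.2 e.2) =
      ∑ σ : E → Equiv.Perm (Fin k), ∏ e : E, ∏ i, W (c.1 e.1.1 i) (c.2 e.1.2 (σ e i)) := by
    intro c
    rw [← Finset.prod_coe_sort]
    unfold perK
    rw [Finset.prod_univ_sum, Fintype.piFinset_univ]
  simp only [h1, mul_sum]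
  rw [sum_comm]
  have h2 : ∀ σ : E → Equiv.Perm (Fin k),
      ∑ c : (A → Fin k → X) × (B → Fin k → Y), (∏ a, ∏ i, μ (c.1 a i)) *
        (∏ b, ∏ i, ν (c.2 b i)) * ∏ e : E, ∏ i, W (c.1 e.1.1 i) (c.2 e.1.2 (σ e i)) ≤
      (∑ c : (A → X) × (B → Y), (∏ a, μ (c.1 a)) *
        (∏ b, ν (c.2 b)) * ∏ e ∈ E, W (c.1 e.1) (c.2 e.2)) ^ k := by
    intro σ
    have h3 := lat_lift hφ hinf hsup hψ hinf' hsup' μ0 ν0 h0 hμ hν hW E
      (fun e => if he : e ∈ E then σ ⟨e, he⟩ else 1)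
    refine le_trans (le_of_eq ?_) h3
    refine sum_congr rfl fun c _ => ?_
    rw [← Finset.prod_coe_sort E]
    congr 1
    refine prod_congr rfl fun e _ => ?_
    rw [dif_pos e.2]
  refine (sum_le_sum fun σ _ => h2 σ).trans (le_of_eq ?_)
  rw [sum_const, card_univ, nsmul_eq_mul]
  congr 1
  rw [Fintype.card_fun, Fintype.card_perm, Fintype.card_fin, Fintype.card_coe]
  push_cast
  ring

theorem sidorenko_emb
    {φ : X → Finset I} (hφ : Function.Injective φ)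
    (hinf : ∀ x y, φ (x ⊓ y) = φ x ⊓ φ y) (hsup : ∀ x y, φ (x ⊔ y) = φ x ⊔ φ y)
    {ψ : Y → Finset J} (hψ : Function.Injective ψ)
    (hinf' : ∀ x y, ψ (x ⊓ y) = ψ x ⊓ ψ y) (hsup' : ∀ x y, ψ (x ⊔ y) = ψ x ⊔ ψ y)
    {μ : X → ℝ} {ν : Y → ℝ} {W : X → Y → ℝ} (μ0 : ∀ x, 0 ≤ μ x) (ν0 : ∀ y, 0 ≤ ν y)
    (h0 : ∀ x y, 0 ≤ W x y) (hμ : LSM μ) (hν : LSM ν)
    (hW : ∀ x x' y y', W x y * W x' y' ≤ W (x ⊓ x') (y ⊓ y') * W (x ⊔ x') (y ⊔ y'))
    (μ1 : ∑ x, μ x = 1) (ν1 : ∑ y, ν y = 1) (E : Finset (A × B)) :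
    (∑ x, ∑ y, μ x * ν y * W x y) ^ E.card ≤
      ∑ c : (A → X) × (B → Y), (∏ a, μ (c.1 a)) * (∏ b, ν (c.2 b)) *
        ∏ e ∈ E, W (c.1 e.1) (c.2 e.2) := by
  classical
  set h := ∑ c : (A → X) × (B → Y), (∏ a, μ (c.1 a)) * (∏ b, ν (c.2 b)) *
        ∏ e ∈ E, W (c.1 e.1) (c.2 e.2) with hh
  have hh0 : 0 ≤ h := sum_nonneg fun c _ => mul_nonneg (mul_nonneg
    (prod_nonneg fun e _ => μ0 _) (prod_nonneg fun e _ => ν0 _)) (prod_nonneg fun e _ => h0 _ _)
  refine le_of_pow_le_poly hh0 ((Fintype.card X + Fintype.card Y) * E.card) fun k => ?_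
  set S := ∑ x, ∑ y, μ x * ν y * W x y with hS
  set M : ℝ := ((k : ℝ) + 1) ^ (Fintype.card X + Fintype.card Y) with hM
  have hM0 : 0 < M := by positivity
  have hkf : (0 : ℝ) < k.factorial := by exact_mod_cast k.factorial_pos
  have htot : ∑ pq : (X → Fin (k + 1)) × (Y → Fin (k + 1)),
      ∑ s ∈ cls pq.1, ∑ t ∈ cls pq.2, perK (fun x y => μ x * ν y * W x y) s t =
      (k.factorial : ℝ) * S ^ k := by
    rw [← sum_perK, Fintype.sum_prod_type]
    have e1 : ∑ s : Fin k → X, ∑ t : Fin k → Y, perK (fun x y => μ x * ν y * W x y) s t =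
        ∑ p, ∑ s ∈ cls p, ∑ t : Fin k → Y, perK (fun x y => μ x * ν y * W x y) s t :=
      (Finset.sum_fiberwise univ ty (fun s => ∑ t : Fin k → Y,
        perK (fun x y => μ x * ν y * W x y) s t)).symm
    rw [e1]
    refine sum_congr rfl fun p _ => ?_
    have e2 : ∑ q, ∑ s ∈ cls p, ∑ t ∈ cls q, perK (fun x y => μ x * ν y * W x y) s t =
        ∑ s ∈ cls p, ∑ q, ∑ t ∈ cls q, perK (fun x y => μ x * ν y * W x y) s t :=
      Finset.sum_comm
    refine e2.trans ?_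
    refine Finset.sum_congr rfl fun s _ => ?_
    exact Finset.sum_fiberwise univ ty (fun t => perK (fun x y => μ x * ν y * W x y) s t)
  have hcardT : (Fintype.card ((X → Fin (k + 1)) × (Y → Fin (k + 1))) : ℝ) = M := by
    rw [Fintype.card_prod, Fintype.card_fun, Fintype.card_fun, Fintype.card_fin]
    push_cast
    rw [hM, pow_add]
  obtain ⟨pq, -, hpq⟩ := Finset.exists_le_of_sum_le
    (s := (univ : Finset ((X → Fin (k + 1)) × (Y → Fin (k + 1)))))
    (f := fun _ => (k.factorial : ℝ) * S ^ k / M)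
    (g := fun pq => ∑ s ∈ cls pq.1, ∑ t ∈ cls pq.2, perK (fun x y => μ x * ν y * W x y) s t)
    univ_nonempty (by
      rw [htot, sum_const, card_univ, nsmul_eq_mul, hcardT]
      rw [mul_div_cancel₀ _ (by positivity)])
  obtain ⟨p, q⟩ := pq
  simp only at hpq
  obtain ⟨κ, hκ0, hκ⟩ : ∃ κ : ℝ, 0 ≤ κ ∧ ∀ s ∈ cls p, ∀ t ∈ cls q, perK W s t = κ := by
    by_cases hne : (cls p).Nonempty ∧ (cls q).Nonempty
    · obtain ⟨⟨s₀, hs₀⟩, ⟨t₀, ht₀⟩⟩ := hne
      refine ⟨perK W s₀ t₀, perK_nonneg h0 _ _, fun s hs t ht => ?_⟩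
      have e1 : ty s₀ = ty s := by
        rw [(mem_filter.mp hs₀).2, (mem_filter.mp hs).2]
      have e2 : ty t₀ = ty t := by
        rw [(mem_filter.mp ht₀).2, (mem_filter.mp ht).2]
      obtain ⟨ρ, rfl⟩ := exists_perm_of_ty e1
      obtain ⟨ρ', rfl⟩ := exists_perm_of_ty e2
      rw [perK_comp_left, perK_comp_right]
    · refine ⟨0, le_rfl, fun s hs t ht => ?_⟩
      exact absurd ⟨⟨s, hs⟩, ⟨t, ht⟩⟩ hne
  have hsum : ∑ s ∈ cls p, ∑ t ∈ cls q, perK (fun x y => μ x * ν y * W x y) s t =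
      mass μ p * mass ν q * κ := by
    unfold mass
    rw [sum_mul_sum, sum_mul]
    refine sum_congr rfl fun s hs => ?_
    rw [sum_mul]
    refine sum_congr rfl fun t ht => ?_
    rw [perK_weight, hκ s hs t ht]
  rw [hsum] at hpq
  set A' := E.image Prod.fst with hA
  set B' := E.image Prod.snd with hB
  set RA : A → Finset (Fin k → X) := fun v => if v ∈ A' then cls p else univ with hRA
  set RB : B → Finset (Fin k → Y) := fun v => if v ∈ B' then cls q else univ with hRB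
  have hlow : mass μ p ^ A'.card * mass ν q ^ B'.card * κ ^ E.card ≤
      ∑ c : (A → Fin k → X) × (B → Fin k → Y), (∏ a, ∏ i, μ (c.1 a i)) *
        (∏ b, ∏ i, ν (c.2 b i)) * ∏ e ∈ E, perK W (c.1 e.1) (c.2 e.2) := by
    have h1 : ∑ c ∈ Fintype.piFinset RA ×ˢ Fintype.piFinset RB, (∏ a, ∏ i, μ (c.1 a i)) *
        (∏ b, ∏ i, ν (c.2 b i)) * ∏ e ∈ E, perK W (c.1 e.1) (c.2 e.2) =
        mass μ p ^ A'.card * mass ν q ^ B'.card * κ ^ E.card := by
      have h2 : ∀ c ∈ Fintype.piFinset RA ×ˢ Fintype.piFinset RB, (∏ a, ∏ i, μ (c.1 a i)) *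
          (∏ b, ∏ i, ν (c.2 b i)) * ∏ e ∈ E, perK W (c.1 e.1) (c.2 e.2) =
          (∏ a, ∏ i, μ (c.1 a i)) * (∏ b, ∏ i, ν (c.2 b i)) * κ ^ E.card := by
        intro c hc
        rw [mem_product, Fintype.mem_piFinset, Fintype.mem_piFinset] at hc
        congr 1
        rw [← prod_const]
        refine prod_congr rfl fun e he => ?_
        have ha : e.1 ∈ A' := mem_image_of_mem _ he
        have hb : e.2 ∈ B' := mem_image_of_mem _ he
        have h3 := hc.1 e.1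
        have h4 := hc.2 e.2
        rw [hRA] at h3
        rw [hRB] at h4
        simp only [ha, if_true] at h3
        simp only [hb, if_true] at h4
        exact hκ _ h3 _ h4
      rw [sum_congr rfl h2, ← sum_mul]
      congr 1
      rw [sum_product]
      simp only
      rw [← sum_mul_sum]
      have h5 : ∀ v : A, ∑ s ∈ RA v, ∏ i, μ (s i) = if v ∈ A' then mass μ p else 1 := by
        intro v
        rw [hRA]
        by_cases hv : v ∈ A'
        · simp only [hv, if_true]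
          rfl
        · simp only [hv, if_false]
          exact sum_all μ μ1
      have h6 : ∀ v : B, ∑ s ∈ RB v, ∏ i, ν (s i) = if v ∈ B' then mass ν q else 1 := by
        intro v
        rw [hRB]
        by_cases hv : v ∈ B'
        · simp only [hv, if_true]
          rfl
        · simp only [hv, if_false]
          exact sum_all ν ν1
      rw [← Finset.prod_univ_sum RA (fun _ s => ∏ i, μ (s i)),
        ← Finset.prod_univ_sum RB (fun _ s => ∏ i, ν (s i))]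
      simp only [h5, h6]
      rw [prod_ite, prod_ite]
      simp
    rw [← h1]
    exact sum_le_sum_of_subset_of_nonneg (subset_univ _) fun c _ _ => mul_nonneg (mul_nonneg
      (prod_nonneg fun e _ => prod_nonneg fun _ _ => μ0 _)
      (prod_nonneg fun e _ => prod_nonneg fun _ _ => ν0 _))
      (prod_nonneg fun e _ => perK_nonneg h0 _ _)
  have hup := hlow.trans (sum_perK_prod_le hφ hinf hsup hψ hinf' hsup' μ0 ν0 h0 hμ hν hW E)
  rw [← hh] at hup
  have mp0 := mass_nonneg μ0 p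
  have mq0 := mass_nonneg ν0 q
  have hp : mass μ p ^ E.card ≤ mass μ p ^ A'.card :=
    pow_le_pow_of_le_one mp0 (mass_le_one μ0 μ1 p) card_image_le
  have hq : mass ν q ^ E.card ≤ mass ν q ^ B'.card :=
    pow_le_pow_of_le_one mq0 (mass_le_one ν0 ν1 q) card_image_le
  have hS0 : 0 ≤ S := sum_nonneg fun x _ => sum_nonneg fun y _ =>
    mul_nonneg (mul_nonneg (μ0 _) (ν0 _)) (h0 _ _)
  have hfin : ((k.factorial : ℝ) * S ^ k / M) ^ E.card ≤ (k.factorial : ℝ) ^ E.card * h ^ k := by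
    calc ((k.factorial : ℝ) * S ^ k / M) ^ E.card
        ≤ (mass μ p * mass ν q * κ) ^ E.card := by gcongr
      _ = mass μ p ^ E.card * mass ν q ^ E.card * κ ^ E.card := by rw [mul_pow, mul_pow]
      _ ≤ mass μ p ^ A'.card * mass ν q ^ B'.card * κ ^ E.card := by gcongr
      _ ≤ _ := hup
  rw [div_pow, mul_pow, div_le_iff₀ (by positivity)] at hfin
  have hfin2 : (k.factorial : ℝ) ^ E.card * (S ^ k) ^ E.card ≤
      (k.factorial : ℝ) ^ E.card * (h ^ k * M ^ E.card) := by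
    calc _ ≤ _ := hfin
      _ = _ := by ring
  have hfin3 := le_of_mul_le_mul_left hfin2 (by positivity)
  calc (S ^ E.card) ^ k = (S ^ k) ^ E.card := by rw [← pow_mul, ← pow_mul, mul_comm]
    _ ≤ _ := hfin3
    _ = _ := by rw [hM, ← pow_mul]

end Main

/-- Sidorenko's inequality for log-supermodular kernels on finite distributive lattices with
log-supermodular probability weights -/
theorem sidorenko_lattice {A B X Y : Type*} [Fintype A] [DecidableEq A] [Fintype B]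
    [DecidableEq B] [DistribLattice X]
    [DistribLattice Y] [Fintype X] [Fintype Y] {μ : X → ℝ} {ν : Y → ℝ} {W : X → Y → ℝ}
    (μ0 : ∀ x, 0 ≤ μ x) (ν0 : ∀ y, 0 ≤ ν y)
    (h0 : ∀ x y, 0 ≤ W x y) (hμ : LSM μ) (hν : LSM ν)
    (hW : ∀ x x' y y', W x y * W x' y' ≤ W (x ⊓ x') (y ⊓ y') * W (x ⊔ x') (y ⊔ y'))
    (μ1 : ∑ x, μ x = 1) (ν1 : ∑ y, ν y = 1) (E : Finset (A × B)) :
    (∑ x, ∑ y, μ x * ν y * W x y) ^ E.card ≤
      ∑ c : (A → X) × (B → Y), (∏ a, μ (c.1 a)) * (∏ b, ν (c.2 b)) *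
        ∏ e ∈ E, W (c.1 e.1) (c.2 e.2) := by
  classical
  obtain ⟨I, _, _, φ, hφ⟩ := exists_birkhoff_representation X
  obtain ⟨J, _, _, ψ, hψ⟩ := exists_birkhoff_representation Y
  exact sidorenko_emb (φ := φ) (ψ := ψ) hφ (fun x y => map_inf _ x y) (fun x y => map_sup _ x y)
    hψ (fun x y => map_inf _ x y) (fun x y => map_sup _ x y) μ0 ν0 h0 hμ hν hW μ1 ν1 E

end Vale.Agent.P050
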