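import Vale.Agent.P050H.Cont

/-! # P050: Sidorenko's inequality for bipartite graphs and log-supermodular hosts -/

open Finset MeasureTheory

namespace Vale.Agent.P050

section Edges

variable {VH : Type*} [Fintype VH] [DecidableEq VH] (H : SimpleGraph VH) [DecidableRel H.Adj]

/-- edges of `H` oriented from colour `false` to colour `true` -/
def orEdges (c : VH → Bool) : Finset ({v // c v = false} × {v // ¬ c v = false}) :=
  univ.filter (fun e => H.Adj e.1.1 e.2.1)

theorem prod_edges (c : VH → Bool) (hc : ∀ u v, H.Adj u v → c u ≠ c v) (w : VH → VH → ℝ)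
    (hs : ∀ u v, w u v = w v u) :
    ∏ e ∈ H.edgeFinset, Sym2.lift ⟨w, hs⟩ e = ∏ e ∈ orEdges H c, w e.1 e.2 := by
  symm
  refine prod_bij (fun e _ => s(e.1.1, e.2.1)) ?_ ?_ ?_ ?_
  · intro e he
    rw [SimpleGraph.mem_edgeFinset, SimpleGraph.mem_edgeSet]
    exact (mem_filter.mp he).2
  · rintro ⟨⟨a, ha⟩, ⟨b, hb⟩⟩ _ ⟨⟨a', ha'⟩, ⟨b', hb'⟩⟩ _ h
    simp only at h
    rw [Sym2.eq_iff] at h
    rcases h with ⟨rfl, rfl⟩ | ⟨rfl, rfl⟩
    · rfl
    · exact absurd ha hb'
  · intro e
    refine Sym2.ind (fun u v => ?_) e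
    intro he
    rw [SimpleGraph.mem_edgeFinset, SimpleGraph.mem_edgeSet] at he
    have h1 := hc u v he
    cases hu : c u
    · have hv : ¬ c v = false := fun h => h1 (hu.trans h.symm)
      exact ⟨(⟨u, hu⟩, ⟨v, hv⟩), mem_filter.mpr ⟨mem_univ _, he⟩, rfl⟩
    · have hv : c v = false := by
        cases hv : c v
        · rfl
        · exact absurd (hu.trans hv.symm) h1
      have hu' : ¬ c u = false := by simp [hu]
      exact ⟨(⟨v, hv⟩, ⟨u, hu'⟩), mem_filter.mpr ⟨mem_univ _, he.symm⟩, Sym2.eq_swap⟩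
  · intro e _
    rfl

theorem card_edges (c : VH → Bool) (hc : ∀ u v, H.Adj u v → c u ≠ c v) :
    H.edgeFinset.card = (orEdges H c).card := by
  have h := prod_edges H c hc (fun _ _ => (2 : ℝ)) (fun _ _ => rfl)
  have h1 : ∏ e ∈ H.edgeFinset, Sym2.lift ⟨fun _ _ => (2 : ℝ), fun (_ _ : VH) => rfl⟩ e =
      ∏ _e ∈ H.edgeFinset, (2 : ℝ) := by
    refine prod_congr rfl fun e _ => ?_
    refine Sym2.ind (fun u v => ?_) e
    rfl
  rw [h1, prod_const, prod_const] at h
  exact pow_right_injective₀ (by norm_num : (0 : ℝ) < 2) (by norm_num) h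

end Edges

section Push

variable {VH : Type*} [Fintype VH] {Ω S S' : Type*} [MeasurableSpace Ω]
  [MeasurableSpace S] [MeasurableSpace S'] (P : Measure Ω) [IsProbabilityMeasure P]

theorem mp_split (c : VH → Bool) {α : Ω → S} {β : Ω → S'} (hα : Measurable α)
    (hβ : Measurable β) :
    MeasurePreserving (fun (x : VH → Ω) => ((fun a : {v // c v = false} => α (x a),
      fun b : {v // ¬ c v = false} => β (x b)) :
        ({v // c v = false} → S) × ({v // ¬ c v = false} → S')))
      (Measure.pi (fun _ : VH => P))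
      ((Measure.pi (fun _ : {v // c v = false} => P.map α)).prod
        (Measure.pi (fun _ : {v // ¬ c v = false} => P.map β))) := by
  haveI : IsProbabilityMeasure (P.map α) := Measure.isProbabilityMeasure_map hα.aemeasurable
  haveI : IsProbabilityMeasure (P.map β) := Measure.isProbabilityMeasure_map hβ.aemeasurable
  have h1 := measurePreserving_piEquivPiSubtypeProd (fun _ : VH => P) (fun v => c v = false)
  have h2 : MeasurePreserving (fun (x : {v // c v = false} → Ω) a => α (x a))
      (Measure.pi (fun _ : {v // c v = false} => P))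
      (Measure.pi (fun _ : {v // c v = false} => P.map α)) :=
    measurePreserving_pi _ _ (fun _ => ⟨hα, rfl⟩)
  have h3 : MeasurePreserving (fun (x : {v // ¬ c v = false} → Ω) a => β (x a))
      (Measure.pi (fun _ : {v // ¬ c v = false} => P))
      (Measure.pi (fun _ : {v // ¬ c v = false} => P.map β)) :=
    measurePreserving_pi _ _ (fun _ => ⟨hβ, rfl⟩)
  exact (h2.prod h3).comp h1

theorem mp_pair {α : Ω → S} {β : Ω → S'} (hα : Measurable α) (hβ : Measurable β) :
    MeasurePreserving (fun z : Ω × Ω => (α z.1, β z.2)) (P.prod P)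
      ((P.map α).prod (P.map β)) := by
  haveI : IsProbabilityMeasure (P.map α) := Measure.isProbabilityMeasure_map hα.aemeasurable
  haveI : IsProbabilityMeasure (P.map β) := Measure.isProbabilityMeasure_map hβ.aemeasurable
  have h1 : MeasurePreserving α P (P.map α) := ⟨hα, rfl⟩
  have h2 : MeasurePreserving β P (P.map β) := ⟨hβ, rfl⟩
  exact h1.prod h2

end Push

end Vale.Agent.P050
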