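import Vale.Agent.P050H.Main

/-! # P050: simple host graphs -/

open Finset MeasureTheory

namespace Vale.Agent.P050

section

variable {U : Type*} [Fintype U] [Nonempty U] [MeasurableSpace U] [MeasurableSingletonClass U]

/-- the uniform probability measure -/
noncomputable def unif (U : Type*) [Fintype U] [MeasurableSpace U] : Measure U :=
  ((Fintype.card U : ENNReal))⁻¹ • Measure.count

theorem unif_prob : IsProbabilityMeasure (unif U) := by
  refine ⟨?_⟩
  rw [unif, Measure.smul_apply, Measure.count_apply MeasurableSet.univ, smul_eq_mul]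
  rw [Set.encard_univ, ENat.card_eq_coe_fintype_card]
  have h : (Fintype.card U : ENNReal) ≠ 0 := by
    exact_mod_cast Fintype.card_ne_zero
  exact ENNReal.inv_mul_cancel h (ENNReal.natCast_ne_top _)

theorem unif_real [DecidableEq U] (s : Finset U) :
    (unif U).real (s : Set U) = (s.card : ℝ) / Fintype.card U := by
  rw [unif, measureReal_def, Measure.smul_apply, Measure.count_apply_finset, smul_eq_mul,
    ENNReal.toReal_mul, ENNReal.toReal_inv, ENNReal.toReal_natCast, ENNReal.toReal_natCast]
  ring

end

theorem main_graph {VH : Type*} [Fintype VH] [DecidableEq VH] (H : SimpleGraph VH)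
    [DecidableRel H.Adj] (c : VH → Bool) (hc : ∀ u v, H.Adj u v → c u ≠ c v)
    {U : Type*} [Fintype U] [Nonempty U] (G : SimpleGraph U) [DecidableRel G.Adj]
    {X Y : Type} [DistribLattice X] [Fintype X] [DistribLattice Y] [Fintype Y]
    (α : U → X) (β : U → Y) (R : X → Y → Prop)
    (hα : LSM (fun x => (Nat.card {u // α u = x} : ℝ)))
    (hβ : LSM (fun y => (Nat.card {u // β u = y} : ℝ)))
    (hR : ∀ x x' y y', R x y → R x' y' → R (x ⊓ x') (y ⊓ y') ∧ R (x ⊔ x') (y ⊔ y'))
    (hG : ∀ u v, G.Adj u v ↔ R (α u) (β v)) :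
    (2 * (G.edgeFinset.card : ℝ) / (Fintype.card U : ℝ) ^ 2) ^ H.edgeFinset.card ≤
      (Nat.card (H →g G) : ℝ) / (Fintype.card U : ℝ) ^ Fintype.card VH := by
  classical
  letI : MeasurableSpace U := ⊤
  haveI : MeasurableSingletonClass U := ⟨fun _ => trivial⟩
  haveI := unif_prob (U := U)
  have hU : (0 : ℝ) < Fintype.card U := by exact_mod_cast Fintype.card_pos
  have rfib : ∀ {Z : Type} (γ : U → Z) (z : Z), (unif U).real (γ ⁻¹' {z}) =
      (Nat.card {u // γ u = z} : ℝ) / Fintype.card U := by
    intro Z γ z
    have h1 : γ ⁻¹' {z} = ((univ.filter (fun u => γ u = z) : Finset U) : Set U) := by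
      ext u
      simp
    rw [h1, unif_real, Nat.card_eq_fintype_card, Fintype.card_subtype]
  have rsing : ∀ u : U, (unif U).real {u} = 1 / Fintype.card U := by
    intro u
    have := unif_real ({u} : Finset U)
    rw [coe_singleton, card_singleton, Nat.cast_one] at this
    exact this
  have lsm_div : ∀ {L : Type} [DistribLattice L] (w : L → ℝ), LSM w →
      LSM (fun x => w x / Fintype.card U) := by
    intro L _ w hw x y
    have h2 := hw x y
    simp only [div_mul_div_comm]
    gcongr
  have hs : ∀ u v, (if G.Adj u v then (1 : ℝ) else 0) = if G.Adj v u then 1 else 0 := fun u v => by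
    simp only [G.adj_comm]
  have key := main_fin H (unif U) c hc (fun u v => if G.Adj u v then (1 : ℝ) else 0) hs α β
    (fun x y => if R x y then (1 : ℝ) else 0) (fun _ => trivial) (fun _ => trivial)
    (by simp only [rfib]; exact lsm_div _ hα) (by simp only [rfib]; exact lsm_div _ hβ)
    (fun x y => by split_ifs <;> norm_num)
    (fun x x' y y' => by
      by_cases h1 : R x y
      · by_cases h2 : R x' y'
        · obtain ⟨h3, h4⟩ := hR _ _ _ _ h1 h2
          rw [if_pos h1, if_pos h2, if_pos h3, if_pos h4]
        · rw [if_neg h2, mul_zero]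
          split_ifs <;> norm_num
      · rw [if_neg h1, zero_mul]
        split_ifs <;> norm_num)
    (fun u v => by simp only [hG])
  have e1 : ∫ z, (if G.Adj z.1 z.2 then (1 : ℝ) else 0) ∂((unif U).prod (unif U)) =
      2 * (G.edgeFinset.card : ℝ) / (Fintype.card U : ℝ) ^ 2 := by
    rw [integral_fintype Integrable.of_finite, Fintype.sum_prod_type]
    have h1 : ∀ u v : U, ((unif U).prod (unif U)).real {(u, v)} •
        (if G.Adj u v then (1 : ℝ) else 0) =
        (1 / (Fintype.card U : ℝ) ^ 2) * (if G.Adj u v then 1 else 0) := by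
      intro u v
      rw [← Set.singleton_prod_singleton, measureReal_prod_prod, rsing, rsing, smul_eq_mul]
      congr 1
      rw [div_mul_div_comm, mul_one, sq]
    simp only [h1, ← mul_sum]
    have h2 : ∑ u, ∑ v, (if G.Adj u v then (1 : ℝ) else 0) = 2 * (G.edgeFinset.card : ℝ) := by
      have h3 := G.sum_degrees_eq_twice_card_edges
      have h4 : ∀ u, ∑ v, (if G.Adj u v then (1 : ℝ) else 0) = (G.degree u : ℝ) := by
        intro u
        rw [← SimpleGraph.card_neighborFinset_eq_degree, Finset.sum_boole]
        congr 2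
        ext v
        simp
      simp only [h4]
      exact_mod_cast h3
    rw [h2]
    ring
  have e2 : ∫ x : VH → U, ∏ e ∈ H.edgeFinset,
        Sym2.lift ⟨fun u v => (if G.Adj (x u) (x v) then (1 : ℝ) else 0), fun _ _ => hs _ _⟩ e
        ∂(Measure.pi fun _ => unif U) =
      (Nat.card (H →g G) : ℝ) / (Fintype.card U : ℝ) ^ Fintype.card VH := by
    rw [integral_fintype Integrable.of_finite]
    have h1 : ∀ x : VH → U, ∏ e ∈ H.edgeFinset,
        Sym2.lift ⟨fun u v => (if G.Adj (x u) (x v) then (1 : ℝ) else 0), fun _ _ => hs _ _⟩ e =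
        if (∀ u v, H.Adj u v → G.Adj (x u) (x v)) then 1 else 0 := by
      intro x
      by_cases h : ∀ u v, H.Adj u v → G.Adj (x u) (x v)
      · rw [if_pos h]
        refine prod_eq_one fun e => ?_
        refine Sym2.ind (fun u v => ?_) e
        intro he
        rw [SimpleGraph.mem_edgeFinset, SimpleGraph.mem_edgeSet] at he
        simp only [Sym2.lift_mk]
        rw [if_pos (h u v he)]
      · rw [if_neg h]
        push Not at h
        obtain ⟨u, v, h1, h2⟩ := h
        refine prod_eq_zero (i := s(u, v)) ?_ ?_
        · rw [SimpleGraph.mem_edgeFinset, SimpleGraph.mem_edgeSet]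
          exact h1
        · simp only [Sym2.lift_mk]
          rw [if_neg h2]
    have h2 : ∀ x : VH → U, (Measure.pi fun _ : VH => unif U).real {x} =
        1 / (Fintype.card U : ℝ) ^ Fintype.card VH := by
      intro x
      rw [real_pi_singleton]
      simp only [rsing]
      rw [prod_const, card_univ, div_pow, one_pow]
    simp only [h1, h2, smul_eq_mul, ← mul_sum]
    rw [Finset.sum_boole, one_div, inv_mul_eq_div]
    congr 2
    have φ : (H →g G) ≃ {x : VH → U // ∀ u v, H.Adj u v → G.Adj (x u) (x v)} :=
      { toFun := fun f => ⟨fun u => f u, fun u v h => f.map_rel h⟩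
        invFun := fun x => ⟨x.1, fun h => x.2 _ _ h⟩
        left_inv := fun _ => rfl
        right_inv := fun _ => rfl }
    rw [Nat.card_congr φ, Nat.card_eq_fintype_card, Fintype.card_subtype]
  rw [e1, e2] at key
  exact key

end Vale.Agent.P050
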