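import Vale.Agent.P050H.Lift

/-! # P050: lift inequality for log-supermodular kernels on finite distributive lattices -/

open Finset

namespace Vale.Agent.P050

theorem LSM.mul {L : Type*} [Lattice L] {g h : L → ℝ} (hg : LSM g) (hh : LSM h)
    (hg0 : ∀ x, 0 ≤ g x) (hh0 : ∀ x, 0 ≤ h x) : LSM (fun x => g x * h x) := by
  intro x y
  calc g x * h x * (g y * h y) = (g x * g y) * (h x * h y) := by ring
    _ ≤ (g (x ⊓ y) * g (x ⊔ y)) * (h (x ⊓ y) * h (x ⊔ y)) :=
      mul_le_mul (hg x y) (hh x y) (mul_nonneg (hh0 _) (hh0 _)) (mul_nonneg (hg0 _) (hg0 _))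
    _ = _ := by ring

theorem LSM.prod {L ι : Type*} [Lattice L] (s : Finset ι) {g : ι → L → ℝ}
    (hg : ∀ i ∈ s, LSM (g i)) (hg0 : ∀ i ∈ s, ∀ x, 0 ≤ g i x) :
    LSM (fun x => ∏ i ∈ s, g i x) := by
  intro x y
  rw [← prod_mul_distrib, ← prod_mul_distrib]
  exact prod_le_prod (fun i hi => mul_nonneg (hg0 i hi _) (hg0 i hi _)) fun i hi => hg i hi x y

theorem LSM.comp {L M : Type*} [Lattice L] [Lattice M] {g : M → ℝ} (hg : LSM g) (φ : L → M)
    (hinf : ∀ x y, φ (x ⊓ y) = φ x ⊓ φ y) (hsup : ∀ x y, φ (x ⊔ y) = φ x ⊔ φ y) :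
    LSM (fun x => g (φ x)) := by
  intro x y
  have := hg (φ x) (φ y)
  rw [← hinf, ← hsup] at this
  exact this

section Gen

variable {k : ℕ} {V : Type*} [Fintype V] [DecidableEq V]

theorem lift_gen (g : (V → Finset (Fin k)) → ℝ) (f : (V → Bool) → ℝ)
    (hg0 : ∀ x, 0 ≤ g x) (hf0 : ∀ z, 0 ≤ f z) (hg : LSM g)
    (h : ∀ x, g x ≤ ∏ j : Fin k, f (fun v => decide (j.val < (x v).card))) :
    ∑ x, g x ≤ (∑ z, f z) ^ k := by
  have e := Fintype.equivFin V
  have h1 := lift_fin (Fintype.card V) (fun x => g (fun v => x (e v)))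
    (fun z => f (fun v => z (e v))) (fun x => hg0 _) (fun z => hf0 _)
    (hg.comp (fun (x : Fin (Fintype.card V) → Finset (Fin k)) v => x (e v)) (fun _ _ => rfl)
      (fun _ _ => rfl)) (fun x => h _)
  have e1 : ∑ x : Fin (Fintype.card V) → Finset (Fin k), g (fun v => x (e v)) = ∑ x, g x :=
    (Equiv.arrowCongr e.symm (Equiv.refl (Finset (Fin k)))).sum_comp g
  have e2 : ∑ z : Fin (Fintype.card V) → Bool, f (fun v => z (e v)) = ∑ z, f z :=
    (Equiv.arrowCongr e.symm (Equiv.refl Bool)).sum_comp f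
  rw [e1, e2] at h1
  exact h1

end Gen

section Ext

variable {I J X Y : Type*}

open Classical in
/-- extension by zero of a function on `X` along `φ : X → Finset I` -/
noncomputable def ext1 (φ : X → Finset I) (w : X → ℝ) (D : Finset I) : ℝ :=
  if h : ∃ x, φ x = D then w h.choose else 0

open Classical in
/-- extension by zero of a kernel -/
noncomputable def ext2 (φ : X → Finset I) (ψ : Y → Finset J) (W : X → Y → ℝ)
    (D : Finset I × Finset J) : ℝ :=
  if h : (∃ x, φ x = D.1) ∧ (∃ y, ψ y = D.2) then W h.1.choose h.2.choose else 0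

theorem ext1_apply {φ : X → Finset I} (hφ : Function.Injective φ) (w : X → ℝ) (x : X) :
    ext1 φ w (φ x) = w x := by
  unfold ext1
  have h : ∃ x', φ x' = φ x := ⟨x, rfl⟩
  rw [dif_pos h]
  congr 1
  exact hφ h.choose_spec

theorem ext2_apply {φ : X → Finset I} (hφ : Function.Injective φ) {ψ : Y → Finset J}
    (hψ : Function.Injective ψ) (W : X → Y → ℝ) (x : X) (y : Y) :
    ext2 φ ψ W (φ x, ψ y) = W x y := by
  unfold ext2
  have h : (∃ x', φ x' = φ x) ∧ (∃ y', ψ y' = ψ y) := ⟨⟨x, rfl⟩, ⟨y, rfl⟩⟩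
  rw [dif_pos h]
  congr 1
  · exact hφ h.1.choose_spec
  · exact hψ h.2.choose_spec

theorem ext1_nonneg (φ : X → Finset I) {w : X → ℝ} (h0 : ∀ x, 0 ≤ w x) (D : Finset I) :
    0 ≤ ext1 φ w D := by
  unfold ext1
  split_ifs
  · exact h0 _
  · exact le_rfl

theorem ext2_nonneg (φ : X → Finset I) (ψ : Y → Finset J) {W : X → Y → ℝ}
    (h0 : ∀ x y, 0 ≤ W x y) (D : Finset I × Finset J) : 0 ≤ ext2 φ ψ W D := by
  unfold ext2
  split_ifs
  · exact h0 _ _
  · exact le_rfl

variable [DecidableEq I] [DecidableEq J] [Lattice X] [Lattice Y]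

theorem ext1_lsm {φ : X → Finset I} (hφ : Function.Injective φ)
    (hinf : ∀ x y, φ (x ⊓ y) = φ x ⊓ φ y) (hsup : ∀ x y, φ (x ⊔ y) = φ x ⊔ φ y) {w : X → ℝ}
    (h0 : ∀ x, 0 ≤ w x) (hw : LSM w) : LSM (ext1 φ w) := by
  intro D D'
  by_cases h : (∃ c, φ c = D) ∧ (∃ c, φ c = D')
  · obtain ⟨⟨c, rfl⟩, ⟨c', rfl⟩⟩ := h
    rw [← hinf, ← hsup, ext1_apply hφ, ext1_apply hφ, ext1_apply hφ, ext1_apply hφ]
    exact hw c c'
  · have : ext1 φ w D * ext1 φ w D' = 0 := by
      rw [not_and_or] at h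
      rcases h with h | h
      · rw [show ext1 φ w D = 0 from dif_neg h, zero_mul]
      · rw [show ext1 φ w D' = 0 from dif_neg h, mul_zero]
    rw [this]
    exact mul_nonneg (ext1_nonneg φ h0 _) (ext1_nonneg φ h0 _)

theorem ext2_lsm {φ : X → Finset I} (hφ : Function.Injective φ)
    (hinf : ∀ x y, φ (x ⊓ y) = φ x ⊓ φ y) (hsup : ∀ x y, φ (x ⊔ y) = φ x ⊔ φ y)
    {ψ : Y → Finset J} (hψ : Function.Injective ψ)
    (hinf' : ∀ x y, ψ (x ⊓ y) = ψ x ⊓ ψ y) (hsup' : ∀ x y, ψ (x ⊔ y) = ψ x ⊔ ψ y)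
    {W : X → Y → ℝ} (h0 : ∀ x y, 0 ≤ W x y)
    (hW : ∀ x x' y y', W x y * W x' y' ≤ W (x ⊓ x') (y ⊓ y') * W (x ⊔ x') (y ⊔ y')) :
    LSM (ext2 φ ψ W) := by
  rintro ⟨D₁, D₂⟩ ⟨D₁', D₂'⟩
  by_cases h : ((∃ c, φ c = D₁) ∧ (∃ c, ψ c = D₂)) ∧ ((∃ c, φ c = D₁') ∧ (∃ c, ψ c = D₂'))
  · obtain ⟨⟨⟨c₁, rfl⟩, ⟨c₂, rfl⟩⟩, ⟨⟨c₁', rfl⟩, ⟨c₂', rfl⟩⟩⟩ := h
    have e1 : ((φ c₁, ψ c₂) ⊓ (φ c₁', ψ c₂') : Finset I × Finset J) =
        (φ (c₁ ⊓ c₁'), ψ (c₂ ⊓ c₂')) := by
      rw [hinf, hinf']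
      rfl
    have e2 : ((φ c₁, ψ c₂) ⊔ (φ c₁', ψ c₂') : Finset I × Finset J) =
        (φ (c₁ ⊔ c₁'), ψ (c₂ ⊔ c₂')) := by
      rw [hsup, hsup']
      rfl
    rw [e1, e2, ext2_apply hφ hψ, ext2_apply hφ hψ, ext2_apply hφ hψ, ext2_apply hφ hψ]
    exact hW _ _ _ _
  · have : ext2 φ ψ W (D₁, D₂) * ext2 φ ψ W (D₁', D₂') = 0 := by
      rw [not_and_or] at h
      rcases h with h | h
      · rw [show ext2 φ ψ W (D₁, D₂) = 0 from dif_neg h, zero_mul]
      · rw [show ext2 φ ψ W (D₁', D₂') = 0 from dif_neg h, mul_zero]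
    rw [this]
    exact mul_nonneg (ext2_nonneg φ ψ h0 _) (ext2_nonneg φ ψ h0 _)

end Ext

section Main

variable {k : ℕ} {A B I J : Type*} [Fintype A] [DecidableEq A] [Fintype B] [DecidableEq B]
  [Fintype I] [DecidableEq I] [Fintype J] [DecidableEq J]

/-- slices of a bit configuration -/
def slA (z : (A × I) ⊕ (B × J) → Bool) (a : A) : Finset I :=
  univ.filter (fun s => z (Sum.inl (a, s)) = true)

def slB (z : (A × I) ⊕ (B × J) → Bool) (b : B) : Finset J :=
  univ.filter (fun s => z (Sum.inr (b, s)) = true)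

/-- slices of a lifted bit configuration -/
def sluA (u : (A × I) ⊕ (B × J) → Finset (Fin k)) (a : A) (i : Fin k) : Finset I :=
  univ.filter (fun s => i ∈ u (Sum.inl (a, s)))

def sluB (u : (A × I) ⊕ (B × J) → Finset (Fin k)) (b : B) (i : Fin k) : Finset J :=
  univ.filter (fun s => i ∈ u (Sum.inr (b, s)))

theorem slice_le {S : Type*} [Fintype S] [DecidableEq S] {w : Finset S → ℝ} (h0 : ∀ D, 0 ≤ w D)
    (hw : LSM w) (u : S → Finset (Fin k)) :
    ∏ i : Fin k, w (univ.filter (fun s => i ∈ u s)) ≤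
      ∏ j : Fin k, w (univ.filter (fun s => decide (j.val < (u s).card) = true)) := by
  refine (prod_le_lev h0 hw univ (fun i => univ.filter (fun s => i ∈ u s))).trans (le_of_eq ?_)
  rw [card_univ, Fintype.card_fin, prod_range]
  refine prod_congr rfl fun j _ => ?_
  congr 1
  ext s
  have : (univ.filter (fun i => s ∈ univ.filter (fun s => i ∈ u s))) = u s := by
    ext i
    simp
  simp only [lev, mem_filter, mem_univ, true_and, decide_eq_true_eq] at this ⊢
  rw [this]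

theorem edge_le {S T : Type*} [Fintype S] [DecidableEq S] [Fintype T] [DecidableEq T]
    {w : Finset S × Finset T → ℝ} (h0 : ∀ D, 0 ≤ w D) (hw : LSM w) (u : S → Finset (Fin k))
    (v : T → Finset (Fin k)) (σ : Equiv.Perm (Fin k)) :
    ∏ i : Fin k, w (univ.filter (fun s => i ∈ u s), univ.filter (fun s => σ i ∈ v s)) ≤
      ∏ j : Fin k, w (univ.filter (fun s => decide (j.val < (u s).card) = true),
        univ.filter (fun s => decide (j.val < (v s).card) = true)) := by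
  classical
  set G : Finset (S ⊕ T) → ℝ := fun D =>
    w (univ.filter (fun s => Sum.inl s ∈ D), univ.filter (fun s => Sum.inr s ∈ D)) with hG
  have hGl : LSM G := by
    refine hw.comp (fun D : Finset (S ⊕ T) =>
      ((univ.filter (fun s => Sum.inl s ∈ D), univ.filter (fun s => Sum.inr s ∈ D)) :
        Finset S × Finset T)) (fun D D' => ?_) (fun D D' => ?_)
    · refine Prod.ext ?_ ?_
      · ext s
        simp
      · ext s
        simp
    · refine Prod.ext ?_ ?_
      · ext s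
        simp
      · ext s
        simp
  have h1 := prod_le_lev (G := G) (fun D => h0 _) hGl (univ : Finset (Fin k))
    (fun i => univ.filter (fun x : S ⊕ T => Sum.elim (fun s => i ∈ u s) (fun s => σ i ∈ v s) x))
  have e1 : ∀ i : Fin k, G (univ.filter (fun x : S ⊕ T =>
      Sum.elim (fun s => i ∈ u s) (fun s => σ i ∈ v s) x)) =
      w (univ.filter (fun s => i ∈ u s), univ.filter (fun s => σ i ∈ v s)) := by
    intro i
    rw [hG]
    simp only
    congr 2
    · ext s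
      simp
    · ext s
      simp
  rw [prod_congr rfl fun i _ => e1 i] at h1
  refine h1.trans (le_of_eq ?_)
  rw [card_univ, Fintype.card_fin, prod_range]
  refine prod_congr rfl fun j _ => ?_
  rw [hG]
  simp only
  congr 2
  · ext s
    have : (univ.filter (fun i => Sum.inl s ∈ univ.filter (fun x : S ⊕ T =>
        Sum.elim (fun s => i ∈ u s) (fun s => σ i ∈ v s) x))) = u s := by
      ext i
      simp
    simp only [lev, mem_filter, mem_univ, true_and, decide_eq_true_eq] at this ⊢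
    rw [this]
  · ext s
    have : (univ.filter (fun i => Sum.inr s ∈ univ.filter (fun x : S ⊕ T =>
        Sum.elim (fun s => i ∈ u s) (fun s => σ i ∈ v s) x))).card = (v s).card := by
      refine card_bij (fun i _ => σ i) ?_ ?_ ?_
      · intro i hi
        simpa using hi
      · intro i _ i' _ h
        exact σ.injective h
      · intro i hi
        exact ⟨σ.symm i, by simpa using hi, by simp⟩
    simp only [lev, mem_filter, mem_univ, true_and, decide_eq_true_eq] at this ⊢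
    rw [this]

/-- the lift inequality on finite lattices of sets -/
theorem lat_lift {X Y : Type*} [Lattice X] [Lattice Y] [Fintype X] [Fintype Y]
    {φ : X → Finset I} (hφ : Function.Injective φ)
    (hinf : ∀ x y, φ (x ⊓ y) = φ x ⊓ φ y) (hsup : ∀ x y, φ (x ⊔ y) = φ x ⊔ φ y)
    {ψ : Y → Finset J} (hψ : Function.Injective ψ)
    (hinf' : ∀ x y, ψ (x ⊓ y) = ψ x ⊓ ψ y) (hsup' : ∀ x y, ψ (x ⊔ y) = ψ x ⊔ ψ y)
    {μ : X → ℝ} {ν : Y → ℝ} {W : X → Y → ℝ} (μ0 : ∀ x, 0 ≤ μ x) (ν0 : ∀ y, 0 ≤ ν y)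
    (h0 : ∀ x y, 0 ≤ W x y) (hμ : LSM μ) (hν : LSM ν)
    (hW : ∀ x x' y y', W x y * W x' y' ≤ W (x ⊓ x') (y ⊓ y') * W (x ⊔ x') (y ⊔ y'))
    (E : Finset (A × B)) (σ : A × B → Equiv.Perm (Fin k)) :
    ∑ c : (A → Fin k → X) × (B → Fin k → Y), (∏ a, ∏ i, μ (c.1 a i)) * (∏ b, ∏ i, ν (c.2 b i)) *
        ∏ e ∈ E, ∏ i, W (c.1 e.1 i) (c.2 e.2 (σ e i)) ≤
      (∑ c : (A → X) × (B → Y), (∏ a, μ (c.1 a)) * (∏ b, ν (c.2 b)) *
        ∏ e ∈ E, W (c.1 e.1) (c.2 e.2)) ^ k := by
  classical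
  set M := ext1 φ μ with hM
  set Nn := ext1 ψ ν with hNn
  set Kk := ext2 φ ψ W with hKk
  have M0 : ∀ D, 0 ≤ M D := ext1_nonneg φ μ0
  have N0 : ∀ D, 0 ≤ Nn D := ext1_nonneg ψ ν0
  have K0 : ∀ D, 0 ≤ Kk D := ext2_nonneg φ ψ h0
  have Ml : LSM M := ext1_lsm hφ hinf hsup μ0 hμ
  have Nl : LSM Nn := ext1_lsm hψ hinf' hsup' ν0 hν
  have Kl : LSM Kk := ext2_lsm hφ hinf hsup hψ hinf' hsup' h0 hW
  set f : ((A × I) ⊕ (B × J) → Bool) → ℝ := fun z =>
    (∏ a, M (slA z a)) * (∏ b, Nn (slB z b)) * ∏ e ∈ E, Kk (slA z e.1, slB z e.2) with hf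
  set g : ((A × I) ⊕ (B × J) → Finset (Fin k)) → ℝ := fun u =>
    (∏ a, ∏ i, M (sluA u a i)) * (∏ b, ∏ i, Nn (sluB u b i)) *
      ∏ e ∈ E, ∏ i, Kk (sluA u e.1 i, sluB u e.2 (σ e i)) with hg
  have pA : ∀ u : (A × I) ⊕ (B × J) → Finset (Fin k), 0 ≤ ∏ a, ∏ i, M (sluA u a i) := fun u =>
    prod_nonneg fun a _ => prod_nonneg fun i _ => M0 _
  have pB : ∀ u : (A × I) ⊕ (B × J) → Finset (Fin k), 0 ≤ ∏ b, ∏ i, Nn (sluB u b i) := fun u =>
    prod_nonneg fun a _ => prod_nonneg fun i _ => N0 _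
  have pE : ∀ u : (A × I) ⊕ (B × J) → Finset (Fin k), 0 ≤ ∏ e ∈ E, ∏ i, Kk (sluA u e.1 i, sluB u e.2 (σ e i)) := fun u =>
    prod_nonneg fun a _ => prod_nonneg fun i _ => K0 _
  have hf0 : ∀ z, 0 ≤ f z := fun z => mul_nonneg (mul_nonneg (prod_nonneg fun p _ => M0 _)
    (prod_nonneg fun p _ => N0 _)) (prod_nonneg fun e _ => K0 _)
  have hg0 : ∀ u, 0 ≤ g u := fun u => mul_nonneg (mul_nonneg (pA u) (pB u)) (pE u)
  have hgl : LSM g := by
    refine LSM.mul (LSM.mul ?_ ?_ pA pB) ?_ (fun u => mul_nonneg (pA u) (pB u)) pE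
    · refine LSM.prod _ (fun p _ => LSM.prod _ (fun i _ => ?_) fun i _ u => M0 _)
        fun p _ u => prod_nonneg fun i _ => M0 _
      refine Ml.comp (fun u => sluA u p i) (fun u u' => ?_) (fun u u' => ?_)
      · ext s
        simp [sluA]
      · ext s
        simp [sluA]
    · refine LSM.prod _ (fun p _ => LSM.prod _ (fun i _ => ?_) fun i _ u => N0 _)
        fun p _ u => prod_nonneg fun i _ => N0 _
      refine Nl.comp (fun u => sluB u p i) (fun u u' => ?_) (fun u u' => ?_)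
      · ext s
        simp [sluB]
      · ext s
        simp [sluB]
    · refine LSM.prod _ (fun e _ => LSM.prod _ (fun i _ => ?_) fun i _ u => K0 _)
        fun e _ u => prod_nonneg fun i _ => K0 _
      refine Kl.comp (fun u => (sluA u e.1 i, sluB u e.2 (σ e i))) (fun u u' => ?_)
        (fun u u' => ?_)
      · refine Prod.ext ?_ ?_
        · ext s
          simp [sluA]
        · ext s
          simp [sluB]
      · refine Prod.ext ?_ ?_
        · ext s
          simp [sluA]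
        · ext s
          simp [sluB]
  have hle : ∀ u, g u ≤ ∏ j : Fin k, f (fun v => decide (j.val < (u v).card)) := by
    intro u
    have e0 : ∏ j : Fin k, f (fun v => decide (j.val < (u v).card)) =
        (∏ a, ∏ j : Fin k, M (slA (fun v : (A × I) ⊕ (B × J) => decide (j.val < (u v).card)) a)) *
        (∏ b, ∏ j : Fin k, Nn (slB (fun v : (A × I) ⊕ (B × J) => decide (j.val < (u v).card)) b)) *
          ∏ e ∈ E, ∏ j : Fin k,
            Kk (slA (fun v : (A × I) ⊕ (B × J) => decide (j.val < (u v).card)) e.1,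
            slB (fun v : (A × I) ⊕ (B × J) => decide (j.val < (u v).card)) e.2) := by
      rw [hf]
      simp only
      rw [prod_mul_distrib, prod_mul_distrib]
      congr 1
      · congr 1
        · exact prod_comm
        · exact prod_comm
      · exact prod_comm
    rw [e0]
    refine mul_le_mul (mul_le_mul ?_ ?_ (pB u) ?_) ?_ (pE u) ?_
    · exact prod_le_prod (fun p _ => prod_nonneg fun i _ => M0 _) fun a _ =>
        slice_le M0 Ml (fun s => u (Sum.inl (a, s)))
    · exact prod_le_prod (fun p _ => prod_nonneg fun i _ => N0 _) fun b _ =>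
        slice_le N0 Nl (fun s => u (Sum.inr (b, s)))
    · exact prod_nonneg fun a _ => prod_nonneg fun i _ => M0 _
    · exact prod_le_prod (fun p _ => prod_nonneg fun i _ => K0 _) fun e _ =>
        edge_le K0 Kl (fun s => u (Sum.inl (e.1, s))) (fun s => u (Sum.inr (e.2, s))) (σ e)
    · exact mul_nonneg (prod_nonneg fun a _ => prod_nonneg fun i _ => M0 _)
        (prod_nonneg fun a _ => prod_nonneg fun i _ => N0 _)
  have hmain := lift_gen g f hg0 hf0 hgl hle
  -- decode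
  have hR : ∑ z, f z ≤ ∑ c : (A → X) × (B → Y), (∏ a, μ (c.1 a)) * (∏ b, ν (c.2 b)) *
        ∏ e ∈ E, W (c.1 e.1) (c.2 e.2) := by
    set Φ : (A → X) × (B → Y) → ((A × I) ⊕ (B × J) → Bool) := fun c v =>
      Sum.elim (fun v : A × I => decide (v.2 ∈ φ (c.1 v.1)))
        (fun v : B × J => decide (v.2 ∈ ψ (c.2 v.1))) v with hΦ
    have hslA : ∀ c a, slA (Φ c) a = φ (c.1 a) := by
      intro c a
      ext s
      simp [slA, Φ]
    have hslB : ∀ c b, slB (Φ c) b = ψ (c.2 b) := by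
      intro c b
      ext s
      simp [slB, Φ]
    have hinj : Function.Injective Φ := by
      intro c c' h
      refine Prod.ext ?_ ?_
      · funext a
        apply hφ
        rw [← hslA, ← hslA, h]
      · funext a
        apply hψ
        rw [← hslB, ← hslB, h]
    have hval : ∀ c, f (Φ c) = (∏ a, μ (c.1 a)) * (∏ b, ν (c.2 b)) *
        ∏ e ∈ E, W (c.1 e.1) (c.2 e.2) := by
      intro c
      rw [hf]
      simp only [hslA, hslB]
      rw [hM, hNn, hKk]
      simp only [ext1_apply hφ, ext1_apply hψ, ext2_apply hφ hψ]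
    have h1 : ∑ z, f z = ∑ z ∈ univ.image Φ, f z := by
      refine (sum_subset (subset_univ _) fun z _ hz => ?_).symm
      by_contra hne
      apply hz
      have h2 : ∀ a, ∃ c, φ c = slA z a := by
        intro a
        by_contra hp
        apply hne
        rw [hf]
        simp only
        rw [prod_eq_zero (mem_univ a) (dif_neg hp), zero_mul, zero_mul]
      have h2' : ∀ a, ∃ c, ψ c = slB z a := by
        intro a
        by_contra hp
        apply hne
        rw [hf]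
        simp only
        rw [prod_eq_zero (mem_univ a) (dif_neg hp), mul_zero, zero_mul]
      choose c hc using h2
      choose d hd using h2'
      refine mem_image.mpr ⟨(c, d), mem_univ _, ?_⟩
      funext v
      rcases v with ⟨a, s⟩ | ⟨b, s⟩
      · simp only [Φ, Sum.elim_inl, hc, slA, mem_filter, mem_univ, true_and]
        simp
      · simp only [Φ, Sum.elim_inr, hd, slB, mem_filter, mem_univ, true_and]
        simp
    rw [h1, sum_image (fun c _ c' _ h => hinj h)]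
    exact le_of_eq (sum_congr rfl fun c _ => hval c)
  have hL : ∑ c : (A → Fin k → X) × (B → Fin k → Y), (∏ a, ∏ i, μ (c.1 a i)) *
      (∏ b, ∏ i, ν (c.2 b i)) * ∏ e ∈ E, ∏ i, W (c.1 e.1 i) (c.2 e.2 (σ e i)) ≤ ∑ u, g u := by
    set Ψ : (A → Fin k → X) × (B → Fin k → Y) → ((A × I) ⊕ (B × J) → Finset (Fin k)) :=
      fun c v => Sum.elim (fun v : A × I => univ.filter (fun i => v.2 ∈ φ (c.1 v.1 i)))
        (fun v : B × J => univ.filter (fun i => v.2 ∈ ψ (c.2 v.1 i))) v with hΨ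
    have hslA : ∀ c a i, sluA (Ψ c) a i = φ (c.1 a i) := by
      intro c a i
      ext s
      simp [sluA, Ψ]
    have hslB : ∀ c b i, sluB (Ψ c) b i = ψ (c.2 b i) := by
      intro c b i
      ext s
      simp [sluB, Ψ]
    have hinj : Function.Injective Ψ := by
      intro c c' h
      refine Prod.ext ?_ ?_
      · funext a i
        apply hφ
        rw [← hslA, ← hslA, h]
      · funext a i
        apply hψ
        rw [← hslB, ← hslB, h]
    have hval : ∀ c, g (Ψ c) = (∏ a, ∏ i, μ (c.1 a i)) * (∏ b, ∏ i, ν (c.2 b i)) *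
        ∏ e ∈ E, ∏ i, W (c.1 e.1 i) (c.2 e.2 (σ e i)) := by
      intro c
      rw [hg]
      simp only [hslA, hslB]
      rw [hM, hNn, hKk]
      simp only [ext1_apply hφ, ext1_apply hψ, ext2_apply hφ hψ]
    have h1 : ∑ c, g (Ψ c) = ∑ u ∈ univ.image Ψ, g u :=
      (sum_image (fun c _ c' _ h => hinj h)).symm
    rw [← sum_congr rfl fun c _ => hval c, h1]
    exact sum_le_sum_of_subset_of_nonneg (subset_univ _) fun u _ _ => hg0 u
  refine hL.trans (hmain.trans ?_)
  exact pow_le_pow_left₀ (sum_nonneg fun z _ => hf0 z) hR k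

end Main

end Vale.Agent.P050
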