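import Mathlib

/-! # P050: lift inequality for products of log-supermodular functions -/

open Finset

namespace Vale.Agent.P050

/-- log-supermodular -/
def LSM {L : Type*} [Lattice L] (g : L → ℝ) : Prop := ∀ x y, g x * g y ≤ g (x ⊓ y) * g (x ⊔ y)

section Rearr

variable {V : Type*} [Fintype V] [DecidableEq V]

/-- level set of a degree function -/
def lev (d : V → ℕ) (j : ℕ) : Finset V := univ.filter (fun v => j < d v)

theorem lsm_insert {G : Finset V → ℝ} (h0 : ∀ S, 0 ≤ G S) (hG : LSM G) (d : V → ℕ) (L : ℕ)
    (hd : ∀ v, d v ≤ L) (S : Finset V) :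
    G S * ∏ j ∈ range L, G (lev d j) ≤
      ∏ j ∈ range (L + 1), G (lev (fun v => d v + if v ∈ S then 1 else 0) j) := by
  have key : ∀ i, G S * ∏ j ∈ range i, G (lev d j) ≤
      (∏ j ∈ range i, G (lev (fun v => d v + if v ∈ S then 1 else 0) j)) *
        G (S.filter (fun v => i ≤ d v)) := by
    intro i
    induction i with
    | zero => simp
    | succ i ih =>
      rw [prod_range_succ, prod_range_succ]
      have h1 := hG (S.filter (fun v => i ≤ d v)) (lev d i)
      have h2 : S.filter (fun v => i ≤ d v) ⊓ lev d i = S.filter (fun v => i + 1 ≤ d v) := by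
        ext v
        simp only [lev, inf_eq_inter, mem_inter, mem_filter, mem_univ, true_and]
        constructor
        · rintro ⟨⟨h1, _⟩, h3⟩
          exact ⟨h1, h3⟩
        · rintro ⟨h1, h2⟩
          exact ⟨⟨h1, by omega⟩, by omega⟩
      have h3 : S.filter (fun v => i ≤ d v) ⊔ lev d i =
          lev (fun v => d v + if v ∈ S then 1 else 0) i := by
        ext v
        simp only [lev, sup_eq_union, mem_union, mem_filter, mem_univ, true_and]
        by_cases hv : v ∈ S
        · simp only [hv, true_and, if_true]
          omega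
        · simp only [hv, false_and, if_false, false_or, add_zero]
      rw [h2, h3] at h1
      calc G S * ((∏ j ∈ range i, G (lev d j)) * G (lev d i))
          = (G S * ∏ j ∈ range i, G (lev d j)) * G (lev d i) := by ring
        _ ≤ ((∏ j ∈ range i, G (lev (fun v => d v + if v ∈ S then 1 else 0) j)) *
            G (S.filter (fun v => i ≤ d v))) * G (lev d i) :=
          mul_le_mul_of_nonneg_right ih (h0 _)
        _ = (∏ j ∈ range i, G (lev (fun v => d v + if v ∈ S then 1 else 0) j)) *
            (G (S.filter (fun v => i ≤ d v)) * G (lev d i)) := by ring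
        _ ≤ (∏ j ∈ range i, G (lev (fun v => d v + if v ∈ S then 1 else 0) j)) *
            (G (S.filter (fun v => i + 1 ≤ d v)) *
              G (lev (fun v => d v + if v ∈ S then 1 else 0) i)) :=
          mul_le_mul_of_nonneg_left h1 (prod_nonneg fun j _ => h0 _)
        _ = _ := by ring
  refine (key L).trans ?_
  rw [prod_range_succ]
  refine mul_le_mul_of_nonneg_left (le_of_eq ?_) (prod_nonneg fun j _ => h0 _)
  congr 1
  ext v
  simp only [lev, mem_filter, mem_univ, true_and]
  have := hd v
  by_cases hv : v ∈ S
  · simp only [hv, true_and, if_true]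
    omega
  · simp only [hv, false_and, if_false, add_zero]
    exact ⟨fun h => h.elim, fun h => absurd h (by omega)⟩

theorem prod_le_lev {G : Finset V → ℝ} (h0 : ∀ S, 0 ≤ G S) (hG : LSM G) {ι : Type*}
    [DecidableEq ι] (s : Finset ι) (S : ι → Finset V) :
    ∏ i ∈ s, G (S i) ≤
      ∏ j ∈ range s.card, G (lev (fun v => (s.filter (fun i => v ∈ S i)).card) j) := by
  induction s using Finset.induction_on with
  | empty => simp
  | insert a s ha ih =>
    rw [prod_insert ha, card_insert_of_notMem ha]
    refine (mul_le_mul_of_nonneg_left ih (h0 _)).trans ?_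
    refine (lsm_insert h0 hG _ s.card (fun v => card_filter_le _ _) (S a)).trans (le_of_eq ?_)
    refine prod_congr rfl fun j _ => ?_
    congr 2
    funext v
    rw [filter_insert]
    by_cases hv : v ∈ S a
    · simp only [hv, if_true]
      rw [card_insert_of_notMem (by simp [ha])]
    · simp only [hv, if_false, add_zero]

end Rearr

section Maj

theorem integral_posLog_div {x R : ℝ} (hx : 0 ≤ x) (hR : x ≤ R) :
    IntervalIntegrable (fun t => Real.posLog (x / t)) MeasureTheory.volume 0 R ∧
      ∫ t in (0:ℝ)..R, Real.posLog (x / t) = x := by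
  rcases hx.eq_or_lt with rfl | hx
  · simp
  · have h1 : Set.EqOn (fun t => Real.log x - Real.log t) (fun t => Real.posLog (x / t))
        (Set.Ioc 0 x) := by
      intro t ht
      show Real.log x - Real.log t = Real.posLog (x / t)
      rw [← Real.log_div hx.ne' ht.1.ne']
      have : 1 ≤ x / t := (one_le_div ht.1).mpr ht.2
      exact (Real.posLog_eq_log (by rw [abs_of_pos (by positivity)]; exact this)).symm
    have h2 : Set.EqOn (fun _ => (0:ℝ)) (fun t => Real.posLog (x / t)) (Set.Ioc x R) := by
      intro t ht
      show (0:ℝ) = Real.posLog (x / t)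
      have ht0 : 0 < t := hx.trans ht.1
      refine ((Real.posLog_eq_zero_iff _).mpr ?_).symm
      rw [abs_of_pos (by positivity), div_le_one ht0]
      exact ht.1.le
    have hi1 : IntervalIntegrable (fun t => Real.log x - Real.log t) MeasureTheory.volume 0 x :=
      intervalIntegrable_const.sub intervalIntegral.intervalIntegrable_log'
    have hi1' : IntervalIntegrable (fun t => Real.posLog (x / t)) MeasureTheory.volume 0 x :=
      hi1.congr (by rw [Set.uIoc_of_le hx.le]; exact h1)
    have hi2' : IntervalIntegrable (fun t => Real.posLog (x / t)) MeasureTheory.volume x R :=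
      (intervalIntegrable_const (c := (0:ℝ))).congr (by rw [Set.uIoc_of_le hR]; exact h2)
    refine ⟨hi1'.trans hi2', ?_⟩
    rw [← intervalIntegral.integral_add_adjacent_intervals hi1' hi2']
    have e1 : ∫ t in (0:ℝ)..x, Real.posLog (x / t) = ∫ t in (0:ℝ)..x, (Real.log x - Real.log t) := by
      rw [intervalIntegral.integral_of_le hx.le, intervalIntegral.integral_of_le hx.le]
      exact (MeasureTheory.setIntegral_congr_fun measurableSet_Ioc h1).symm
    have e2 : ∫ t in x..R, Real.posLog (x / t) = 0 := by
      rw [intervalIntegral.integral_of_le hR,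
        ← MeasureTheory.setIntegral_congr_fun measurableSet_Ioc h2]
      simp
    rw [e1, e2, intervalIntegral.integral_sub intervalIntegrable_const
      intervalIntegral.intervalIntegrable_log']
    rw [integral_log]
    simp

/-- Products over all families of the same size dominated implies sums dominated. -/
theorem sum_le_of_prod_le {ι : Type*} [Fintype ι] [DecidableEq ι] {G w : ι → ℝ}
    (hG : ∀ i, 0 ≤ G i) (hw : ∀ i, 0 ≤ w i)
    (h : ∀ A : Finset ι, ∃ A' : Finset ι, A'.card = A.card ∧ ∏ i ∈ A, G i ≤ ∏ i ∈ A', w i) :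
    ∑ i, G i ≤ ∑ i, w i := by
  set R := 1 + ∑ i, G i + ∑ i, w i with hR
  have hGR : ∀ i, G i ≤ R := fun i => by
    have h1 := single_le_sum (f := G) (fun j _ => hG j) (mem_univ i)
    have h2 : 0 ≤ ∑ i, w i := sum_nonneg fun j _ => hw j
    linarith
  have hwR : ∀ i, w i ≤ R := fun i => by
    have h1 := single_le_sum (f := w) (fun j _ => hw j) (mem_univ i)
    have h2 : 0 ≤ ∑ i, G i := sum_nonneg fun j _ => hG j
    linarith
  have hR0 : 0 ≤ R := by
    have h1 : 0 ≤ ∑ i, w i := sum_nonneg fun j _ => hw j
    have h2 : 0 ≤ ∑ i, G i := sum_nonneg fun j _ => hG j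
    linarith
  have key : ∀ t : ℝ, 0 < t → ∑ i, Real.posLog (G i / t) ≤ ∑ i, Real.posLog (w i / t) := by
    intro t ht
    set A := univ.filter (fun i => t < G i) with hA
    obtain ⟨A', hc, hp⟩ := h A
    have h1 : ∑ i, Real.posLog (G i / t) = ∑ i ∈ A, Real.log (G i / t) := by
      rw [hA, sum_filter]
      refine sum_congr rfl fun i _ => ?_
      split_ifs with hi
      · refine Real.posLog_eq_log ?_
        rw [abs_of_nonneg (div_nonneg (hG i) ht.le)]
        exact ((one_lt_div ht).mpr hi).le
      · refine (Real.posLog_eq_zero_iff _).mpr ?_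
        rw [abs_of_nonneg (div_nonneg (hG i) ht.le), div_le_one ht]
        exact not_lt.mp hi
    have hApos : ∀ i ∈ A, 0 < G i / t := fun i hi => by
      have : t < G i := (mem_filter.mp hi).2
      exact div_pos (ht.trans this) ht
    have h2 : ∏ i ∈ A, (G i / t) ≤ ∏ i ∈ A', (w i / t) := by
      rw [prod_div_distrib, prod_div_distrib, prod_const, prod_const, hc]
      gcongr
    have h3 : 0 < ∏ i ∈ A, (G i / t) := prod_pos hApos
    have h4 : 0 < ∏ i ∈ A', (w i / t) := h3.trans_le h2
    have h5 : ∀ i ∈ A', w i / t ≠ 0 := fun i hi h0 => h4.ne' (prod_eq_zero hi h0)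
    rw [h1, ← Real.log_prod (fun i hi => (hApos i hi).ne')]
    refine (Real.log_le_log h3 h2).trans ?_
    rw [Real.log_prod h5]
    refine (sum_le_sum fun i _ => le_max_right 0 (Real.log (w i / t))).trans ?_
    exact sum_le_sum_of_subset_of_nonneg (subset_univ _) fun i _ _ => Real.posLog_nonneg
  have e1 : ∑ i, G i = ∫ t in (0:ℝ)..R, ∑ i, Real.posLog (G i / t) := by
    rw [intervalIntegral.integral_finsetSum fun i _ => (integral_posLog_div (hG i) (hGR i)).1]
    exact sum_congr rfl fun i _ => (integral_posLog_div (hG i) (hGR i)).2.symm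
  have e2 : ∑ i, w i = ∫ t in (0:ℝ)..R, ∑ i, Real.posLog (w i / t) := by
    rw [intervalIntegral.integral_finsetSum fun i _ => (integral_posLog_div (hw i) (hwR i)).1]
    exact sum_congr rfl fun i _ => (integral_posLog_div (hw i) (hwR i)).2.symm
  rw [e1, e2]
  refine intervalIntegral.integral_mono_on_of_le_Ioo hR0 ?_ ?_ fun t ht => key t ht.1
  · have := IntervalIntegrable.sum univ fun i _ => (integral_posLog_div (hG i) (hGR i)).1
    refine this.congr fun t _ => ?_
    simp
  · have := IntervalIntegrable.sum univ fun i _ => (integral_posLog_div (hw i) (hwR i)).1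
    refine this.congr fun t _ => ?_
    simp

end Maj

section Bit

variable {k : ℕ}

theorem lower_mem_iff (P : Finset (Fin k)) (hP : ∀ i ∈ P, ∀ j, j ≤ i → j ∈ P) (j : Fin k) :
    j ∈ P ↔ j.val < P.card := by
  constructor
  · intro hj
    have h1 : Finset.Iic j ⊆ P := fun i hi => hP j hj i (Finset.mem_Iic.mp hi)
    have h2 := card_le_card h1
    rw [Fin.card_Iic] at h2
    omega
  · intro hj
    by_contra hn
    have h1 : P ⊆ Finset.Iio j := fun i hi => by
      rw [Finset.mem_Iio]
      by_contra h
      exact hn (hP i hi j (not_lt.mp h))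
    have h2 := card_le_card h1
    rw [Fin.card_Iio] at h2
    omega

/-- the product weight -/
def wt (a b : Fin k → ℝ) (S : Finset (Fin k)) : ℝ := ∏ j, if j ∈ S then b j else a j

theorem sum_wt (a b : Fin k → ℝ) : ∑ S, wt a b S = ∏ j, (a j + b j) := by
  have h := Finset.prod_add b a (univ : Finset (Fin k))
  rw [powerset_univ] at h
  rw [show ∏ j, (a j + b j) = ∏ j, (b j + a j) from prod_congr rfl fun j _ => add_comm _ _, h]
  refine sum_congr rfl fun S _ => ?_
  unfold wt
  rw [prod_ite]
  congr 1
  · exact prod_congr (by ext; simp) fun _ _ => rfl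
  · exact prod_congr (by ext; simp) fun _ _ => rfl

theorem prod_ite_count {ι : Type*} (s : Finset ι) (p : ι → Prop) [DecidablePred p] (x y : ℝ) :
    ∏ i ∈ s, (if p i then x else y) = x ^ (s.filter p).card * y ^ (s.card - (s.filter p).card) := by
  rw [prod_ite, prod_const, prod_const]
  congr 2
  have := card_filter_add_card_filter_not (s := s) p
  omega

theorem bit_lemma {G : Finset (Fin k) → ℝ} (h0 : ∀ S, 0 ≤ G S) (hG : LSM G) {a b : Fin k → ℝ}
    (ha : ∀ j, 0 ≤ a j) (hb : ∀ j, 0 ≤ b j)
    (h : ∀ S, G S ≤ ∏ j : Fin k, if j.val < S.card then b j else a j) :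
    ∑ S, G S ≤ ∏ j, (a j + b j) := by
  rw [← sum_wt]
  have hw : ∀ S, 0 ≤ wt a b S := fun S => prod_nonneg fun j _ => by split_ifs <;> simp [ha, hb]
  refine sum_le_of_prod_le h0 hw fun A => ?_
  set deg : Fin k → ℕ := fun v => (A.filter (fun S => v ∈ S)).card with hdeg
  set π : Equiv.Perm (Fin k) := Tuple.sort (fun v => OrderDual.toDual (deg v)) with hπ
  have hmono : ∀ i j, i ≤ j → deg (π j) ≤ deg (π i) := fun i j hij =>
    Tuple.monotone_sort (fun v => OrderDual.toDual (deg v)) hij
  have hcard : ∀ l (j : Fin k), j.val < (lev deg l).card ↔ l < deg (π j) := by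
    intro l j
    have h1 : (univ.filter (fun j : Fin k => l < deg (π j))).card = (lev deg l).card := by
      refine card_bij (fun j _ => π j) ?_ ?_ ?_
      · intro j hj
        simpa [lev] using hj
      · intro i _ j _ hij
        exact π.injective hij
      · intro v hv
        refine ⟨π.symm v, ?_, ?_⟩
        · simpa [lev] using hv
        · simp
    rw [← h1, ← lower_mem_iff]
    · simp
    · intro i hi j hj
      simp only [mem_filter, mem_univ, true_and] at hi ⊢
      exact hi.trans_le (hmono j i hj)
  refine ⟨A.image (fun S => S.map π.symm.toEmbedding), ?_, ?_⟩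
  · exact card_image_of_injective _ fun S T hST => Finset.map_injective _ hST
  · rw [prod_image (fun S _ T _ hST => Finset.map_injective _ hST)]
    refine (prod_le_lev h0 hG A (fun S => S)).trans ?_
    have h2 : ∏ l ∈ range A.card, G (lev deg l) ≤
        ∏ l ∈ range A.card, ∏ j : Fin k, (if l < deg (π j) then b j else a j) := by
      refine prod_le_prod (fun l _ => h0 _) fun l _ => ?_
      refine (h _).trans (le_of_eq ?_)
      refine prod_congr rfl fun j _ => ?_
      simp only [hcard]
    refine h2.trans (le_of_eq ?_)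
    rw [prod_comm]
    have h3 : ∏ S ∈ A, wt a b (S.map π.symm.toEmbedding) =
        ∏ S ∈ A, ∏ j : Fin k, (if π j ∈ S then b j else a j : ℝ) := by
      refine prod_congr rfl fun S _ => prod_congr rfl fun j _ => ?_
      have : j ∈ S.map π.symm.toEmbedding ↔ π j ∈ S := by
        rw [Finset.mem_map_equiv]
        simp
      simp only [this]
    rw [h3, prod_comm (s := A)]
    refine prod_congr rfl fun j _ => ?_
    rw [prod_ite_count, prod_ite_count, card_range]
    have h4 : ((range A.card).filter (fun l => l < deg (π j))).card = deg (π j) := by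
      have : (range A.card).filter (fun l => l < deg (π j)) = range (deg (π j)) := by
        ext l
        simp only [mem_filter, mem_range]
        have := card_filter_le A (fun S => π j ∈ S)
        constructor
        · exact fun h => h.2
        · intro h
          exact ⟨lt_of_lt_of_le h this, h⟩
      rw [this, card_range]
    rw [h4]

/-- LSM is preserved by summing out -/
theorem LSM.marginal {L M : Type*} [DistribLattice L] [Lattice M] [Fintype L] {g : L → M → ℝ}
    (h0 : ∀ s x, 0 ≤ g s x)
    (h : ∀ s t x y, g s x * g t y ≤ g (s ⊓ t) (x ⊓ y) * g (s ⊔ t) (x ⊔ y)) :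
    LSM (fun x => ∑ s, g s x) := by
  intro x y
  exact four_functions_theorem_univ (fun s => g s x) (fun s => g s y) (fun s => g s (x ⊓ y))
    (fun s => g s (x ⊔ y)) (fun s => h0 _ _) (fun s => h0 _ _) (fun s => h0 _ _)
    (fun s => h0 _ _) fun s t => h s t x y

theorem lift_fin (n : ℕ) (g : (Fin n → Finset (Fin k)) → ℝ) (f : (Fin n → Bool) → ℝ)
    (hg0 : ∀ x, 0 ≤ g x) (hf0 : ∀ z, 0 ≤ f z) (hg : LSM g)
    (h : ∀ x, g x ≤ ∏ j : Fin k, f (fun v => decide (j.val < (x v).card))) :
    ∑ x, g x ≤ (∑ z, f z) ^ k := by
  induction n with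
  | zero =>
    rw [Fintype.sum_unique, Fintype.sum_unique]
    refine (h _).trans (le_of_eq ?_)
    rw [prod_congr rfl (fun j _ => congrArg f (Subsingleton.elim _ default)), prod_const,
      card_univ, Fintype.card_fin]
    exact congrArg (fun t => f t ^ k) (Subsingleton.elim _ _)
  | succ n ih =>
    have e1 : ∑ x, g x = ∑ x' : Fin n → Finset (Fin k), ∑ S : Finset (Fin k),
        g (Fin.cons S x') := by
      rw [← (Fin.consEquiv (fun _ : Fin (n + 1) => Finset (Fin k))).sum_comp, Fintype.sum_prod_type,
        sum_comm]
      rfl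
    have e2 : ∑ z, f z = ∑ z' : Fin n → Bool, (f (Fin.cons false z') + f (Fin.cons true z')) := by
      rw [← (Fin.consEquiv (fun _ : Fin (n + 1) => Bool)).sum_comp, Fintype.sum_prod_type,
        sum_comm]
      refine sum_congr rfl fun z' _ => ?_
      rw [Fintype.sum_bool, add_comm]
      rfl
    rw [e1, e2]
    refine ih _ _ (fun x => sum_nonneg fun S _ => hg0 _) (fun z => add_nonneg (hf0 _) (hf0 _))
      ?_ ?_
    · refine LSM.marginal (g := fun (S : Finset (Fin k)) (x' : Fin n → Finset (Fin k)) =>
        g (Fin.cons S x')) (fun _ _ => hg0 _) fun S T x y => ?_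
      have h1 := hg (Fin.cons S x : Fin (n + 1) → Finset (Fin k)) (Fin.cons T y)
      have h2 : (Fin.cons S x : Fin (n + 1) → Finset (Fin k)) ⊓ Fin.cons T y =
          Fin.cons (S ⊓ T) (x ⊓ y) := by
        funext v
        refine Fin.cases ?_ (fun i => ?_) v
        · simp
        · simp
      have h3 : (Fin.cons S x : Fin (n + 1) → Finset (Fin k)) ⊔ Fin.cons T y =
          Fin.cons (S ⊔ T) (x ⊔ y) := by
        funext v
        refine Fin.cases ?_ (fun i => ?_) v
        · simp
        · simp
      rw [h2, h3] at h1
      exact h1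
    · intro x'
      refine bit_lemma (G := fun S => g (Fin.cons S x')) (fun S => hg0 _) ?_ (fun j => hf0 _)
        (fun j => hf0 _) fun S => ?_
      · intro S T
        have h1 := hg (Fin.cons S x' : Fin (n + 1) → Finset (Fin k)) (Fin.cons T x')
        have h2 : (Fin.cons S x' : Fin (n + 1) → Finset (Fin k)) ⊓ Fin.cons T x' =
            Fin.cons (S ⊓ T) x' := by
          funext v
          refine Fin.cases ?_ (fun i => ?_) v
          · simp
          · simp
        have h3 : (Fin.cons S x' : Fin (n + 1) → Finset (Fin k)) ⊔ Fin.cons T x' =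
            Fin.cons (S ⊔ T) x' := by
          funext v
          refine Fin.cases ?_ (fun i => ?_) v
          · simp
          · simp
        rw [h2, h3] at h1
        exact h1
      · refine (h _).trans (le_of_eq ?_)
        refine prod_congr rfl fun j _ => ?_
        have h4 : (fun v => decide (j.val < ((Fin.cons S x' : Fin (n + 1) → Finset (Fin k)) v).card))
            = Fin.cons (decide (j.val < S.card)) (fun v => decide (j.val < (x' v).card)) := by
          funext v
          refine Fin.cases ?_ (fun i => ?_) v
          · simp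
          · simp
        rw [h4]
        by_cases hj : j.val < S.card
        · simp [hj]
        · simp [hj]

end Bit

end Vale.Agent.P050
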