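import Vale.Agent.P050H.Graph

/-! # P050: main theorems -/

open Finset MeasureTheory

namespace Vale.Agent.P050

section

variable {VH : Type*} [Fintype VH] [DecidableEq VH] (H : SimpleGraph VH) [DecidableRel H.Adj]
  {Ω : Type*} [MeasurableSpace Ω] (P : Measure Ω) [IsProbabilityMeasure P]

theorem main_real {S R : Type*} [LinearOrder S] [MeasurableSpace S] [LinearOrder R]
    [MeasurableSpace R] (c : VH → Bool) (hc : ∀ u v, H.Adj u v → c u ≠ c v) (W : Ω → Ω → ℝ)
    (hs : ∀ u v, W u v = W v u) {m k : ℕ} (μ : Fin m → Measure S)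
    (ν : Fin k → Measure R)
    (hμ : ∀ i, IsProbabilityMeasure (μ i)) (hν : ∀ i, IsProbabilityMeasure (ν i))
    (α : Ω → Fin m → S) (β : Ω → Fin k → R) (K : (Fin m → S) → (Fin k → R) → ℝ) (C : ℝ)
    (hα : Measurable α) (hβ : Measurable β) (hαμ : P.map α = Measure.pi μ)
    (hβν : P.map β = Measure.pi ν)
    (hm : Measurable (fun z : (Fin m → S) × (Fin k → R) => K z.1 z.2))
    (h0 : ∀ x y, 0 ≤ K x y) (hC : ∀ x y, K x y ≤ C)
    (hK : ∀ x x' y y', K x y * K x' y' ≤ K (x ⊓ x') (y ⊓ y') * K (x ⊔ x') (y ⊔ y'))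
    (hW : ∀ u v, W u v = K (α u) (β v)) :
    (∫ z, W z.1 z.2 ∂(P.prod P)) ^ H.edgeFinset.card ≤
      ∫ x : VH → Ω, ∏ e ∈ H.edgeFinset,
        Sym2.lift ⟨fun u v => W (x u) (x v), fun _ _ => hs _ _⟩ e ∂(Measure.pi fun _ => P) := by
  have e1 : ∫ z, W z.1 z.2 ∂(P.prod P) =
      ∫ z, K z.1 z.2 ∂((Measure.pi μ).prod (Measure.pi ν)) := by
    rw [← hαμ, ← hβν, ← integral_comp_mp (mp_pair P hα hβ) hm]
    simp only [hW]
  have e2 : ∫ x : VH → Ω, ∏ e ∈ H.edgeFinset,
        Sym2.lift ⟨fun u v => W (x u) (x v), fun _ _ => hs _ _⟩ e ∂(Measure.pi fun _ => P) =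
      ∫ z : ({v // c v = false} → Fin m → S) × ({v // ¬ c v = false} → Fin k → R),
        ∏ e ∈ orEdges H c, K (z.1 e.1) (z.2 e.2)
        ∂((Measure.pi (fun _ => Measure.pi μ)).prod (Measure.pi (fun _ => Measure.pi ν))) := by
    have hmm : Measurable (fun z : ({v // c v = false} → Fin m → S) ×
        ({v // ¬ c v = false} → Fin k → R) => ∏ e ∈ orEdges H c, K (z.1 e.1) (z.2 e.2)) := by
      refine Finset.measurable_prod _ fun e _ => ?_
      have h5 : Measurable (fun z : ({v // c v = false} → Fin m → S) ×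
          ({v // ¬ c v = false} → Fin k → R) => (z.1 e.1, z.2 e.2)) :=
        ((measurable_pi_apply e.1).comp measurable_fst).prodMk
          ((measurable_pi_apply e.2).comp measurable_snd)
      exact hm.comp h5
    have h6 := integral_comp_mp (mp_split P c hα hβ) hmm
    rw [hαμ, hβν] at h6
    rw [← h6]
    refine integral_congr_ae (Filter.Eventually.of_forall fun x => ?_)
    simp only
    rw [prod_edges H c hc (fun u v => W (x u) (x v)) (fun _ _ => hs _ _)]
    simp only [hW]
  rw [e1, e2, card_edges H c hc]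
  exact sidorenko_cont μ ν hm h0 hC hK (orEdges H c)

theorem real_pi_singleton {A X : Type*} [Fintype A] [MeasurableSpace X]
    [MeasurableSingletonClass X] (Q : Measure X) [IsProbabilityMeasure Q] (c : A → X) :
    (Measure.pi (fun _ : A => Q)).real {c} = ∏ a, Q.real {c a} := by
  rw [measureReal_def, Measure.pi_singleton, ENNReal.toReal_prod]
  rfl

theorem main_fin (c : VH → Bool) (hc : ∀ u v, H.Adj u v → c u ≠ c v) (W : Ω → Ω → ℝ)
    (hs : ∀ u v, W u v = W v u) {X Y : Type} [DistribLattice X] [Fintype X] [DistribLattice Y]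
    [Fintype Y] (α : Ω → X) (β : Ω → Y) (K : X → Y → ℝ)
    (hα : ∀ x, MeasurableSet (α ⁻¹' {x})) (hβ : ∀ y, MeasurableSet (β ⁻¹' {y}))
    (hαl : LSM (fun x => P.real (α ⁻¹' {x}))) (hβl : LSM (fun y => P.real (β ⁻¹' {y})))
    (h0 : ∀ x y, 0 ≤ K x y)
    (hK : ∀ x x' y y', K x y * K x' y' ≤ K (x ⊓ x') (y ⊓ y') * K (x ⊔ x') (y ⊔ y'))
    (hW : ∀ u v, W u v = K (α u) (β v)) :
    (∫ z, W z.1 z.2 ∂(P.prod P)) ^ H.edgeFinset.card ≤
      ∫ x : VH → Ω, ∏ e ∈ H.edgeFinset,
        Sym2.lift ⟨fun u v => W (x u) (x v), fun _ _ => hs _ _⟩ e ∂(Measure.pi fun _ => P) := by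
  classical
  letI : MeasurableSpace X := ⊤
  letI : MeasurableSpace Y := ⊤
  haveI : MeasurableSingletonClass X := ⟨fun _ => trivial⟩
  haveI : MeasurableSingletonClass Y := ⟨fun _ => trivial⟩
  have hαm : Measurable α := measurable_to_countable' hα
  have hβm : Measurable β := measurable_to_countable' hβ
  haveI : IsProbabilityMeasure (P.map α) := Measure.isProbabilityMeasure_map hαm.aemeasurable
  haveI : IsProbabilityMeasure (P.map β) := Measure.isProbabilityMeasure_map hβm.aemeasurable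
  have rα : ∀ x, (P.map α).real {x} = P.real (α ⁻¹' {x}) := fun x => by
    rw [measureReal_def, Measure.map_apply hαm (measurableSet_singleton x)]
    rfl
  have rβ : ∀ x, (P.map β).real {x} = P.real (β ⁻¹' {x}) := fun x => by
    rw [measureReal_def, Measure.map_apply hβm (measurableSet_singleton x)]
    rfl
  have hm : Measurable (fun z : X × Y => K z.1 z.2) := measurable_of_finite _
  have e1 : ∫ z, W z.1 z.2 ∂(P.prod P) =
      ∑ x, ∑ y, P.real (α ⁻¹' {x}) * P.real (β ⁻¹' {y}) * K x y := by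
    have h1 := integral_comp_mp (mp_pair P hαm hβm) hm
    simp only at h1
    simp only [hW]
    rw [h1, integral_fintype Integrable.of_finite, Fintype.sum_prod_type]
    refine sum_congr rfl fun x _ => sum_congr rfl fun y _ => ?_
    rw [← Set.singleton_prod_singleton, measureReal_prod_prod, rα, rβ, smul_eq_mul]
  have e2 : ∫ x : VH → Ω, ∏ e ∈ H.edgeFinset,
        Sym2.lift ⟨fun u v => W (x u) (x v), fun _ _ => hs _ _⟩ e ∂(Measure.pi fun _ => P) =
      ∑ z : ({v // c v = false} → X) × ({v // ¬ c v = false} → Y),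
        (∏ a, P.real (α ⁻¹' {z.1 a})) * (∏ b, P.real (β ⁻¹' {z.2 b})) *
        ∏ e ∈ orEdges H c, K (z.1 e.1) (z.2 e.2) := by
    have hmm : Measurable (fun z : ({v // c v = false} → X) ×
        ({v // ¬ c v = false} → Y) => ∏ e ∈ orEdges H c, K (z.1 e.1) (z.2 e.2)) :=
      measurable_of_finite _
    have h6 := integral_comp_mp (mp_split P c hαm hβm) hmm
    have h7 : ∫ x : VH → Ω, ∏ e ∈ H.edgeFinset,
        Sym2.lift ⟨fun u v => W (x u) (x v), fun _ _ => hs _ _⟩ e ∂(Measure.pi fun _ => P) =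
        ∫ x : VH → Ω, ∏ e ∈ orEdges H c, K (α (x e.1)) (β (x e.2)) ∂(Measure.pi fun _ => P) := by
      refine integral_congr_ae (Filter.Eventually.of_forall fun x => ?_)
      simp only
      rw [prod_edges H c hc (fun u v => W (x u) (x v)) (fun _ _ => hs _ _)]
      simp only [hW]
    rw [h7]
    refine h6.trans ?_
    rw [integral_fintype Integrable.of_finite]
    refine sum_congr rfl fun z _ => ?_
    have h8 : ({z} : Set (({v // c v = false} → X) × ({v // ¬ c v = false} → Y))) =
        {z.1} ×ˢ {z.2} := by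
      rw [Set.singleton_prod_singleton]
    rw [h8, measureReal_prod_prod, real_pi_singleton, real_pi_singleton, smul_eq_mul]
    simp only [rα, rβ]
  rw [e1, e2, card_edges H c hc]
  have s1 : ∑ x, P.real (α ⁻¹' {x}) = 1 := by
    have := sum_measureReal_singleton (μ := P.map α) (univ : Finset X)
    simp only [rα] at this
    rw [this, coe_univ, probReal_univ]
  have s2 : ∑ x, P.real (β ⁻¹' {x}) = 1 := by
    have := sum_measureReal_singleton (μ := P.map β) (univ : Finset Y)
    simp only [rβ] at this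
    rw [this, coe_univ, probReal_univ]
  exact sidorenko_lattice (fun _ => measureReal_nonneg) (fun _ => measureReal_nonneg) h0 hαl hβl
    hK s1 s2 (orEdges H c)

end

end Vale.Agent.P050
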