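import Vale.Agent.P050H.FinL

/-! # P050: Sidorenko's inequality for log-supermodular kernels on products of linear orders -/

open Finset MeasureTheory

namespace Vale.Agent.P050

/-- restriction along an injection is measure preserving for product probability measures -/
theorem mp_restrict {S : Type*} [MeasurableSpace S] {ι κ : Type*} [Fintype ι] [Fintype κ]
    (f : κ → ι)
    (hf : Function.Injective f) (m : ι → Measure S) [∀ i, IsProbabilityMeasure (m i)] :
    MeasurePreserving (fun (ω : ι → S) k => ω (f k)) (Measure.pi m)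
      (Measure.pi (fun k => m (f k))) := by
  classical
  have hm : Measurable (fun (ω : ι → S) k => ω (f k)) :=
    measurable_pi_lambda _ fun k => measurable_pi_apply _
  refine ⟨hm, ?_⟩
  refine (Measure.pi_eq fun s hs => ?_).symm
  rw [Measure.map_apply hm (MeasurableSet.univ_pi hs)]
  set s' : ι → Set S := fun i => if h : ∃ k, f k = i then s h.choose else Set.univ with hs'
  have hval : ∀ k, s' (f k) = s k := by
    intro k
    have h : ∃ k', f k' = f k := ⟨k, rfl⟩
    rw [hs']
    simp only
    rw [dif_pos h]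
    congr 1
    exact hf h.choose_spec
  have hpre : (fun (ω : ι → S) k => ω (f k)) ⁻¹' Set.univ.pi s = Set.univ.pi s' := by
    ext ω
    simp only [Set.mem_preimage, Set.mem_univ_pi]
    constructor
    · intro h i
      by_cases hi : ∃ k, f k = i
      · obtain ⟨k, rfl⟩ := hi
        rw [hval]
        exact h k
      · rw [hs']
        simp only
        rw [dif_neg hi]
        trivial
    · intro h k
      rw [← hval]
      exact h (f k)
  rw [hpre, Measure.pi_pi]
  have h1 : ∏ i, m i (s' i) = ∏ i ∈ univ.image f, m i (s' i) := by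
    refine (prod_subset (subset_univ _) fun i _ hi => ?_).symm
    have : ¬ ∃ k, f k = i := by
      rintro ⟨k, rfl⟩
      exact hi (mem_image_of_mem _ (mem_univ _))
    rw [hs']
    simp only
    rw [dif_neg this]
    exact measure_univ
  rw [h1, prod_image (fun a _ b _ h => hf h)]
  exact prod_congr rfl fun k _ => by rw [hval]

section

variable {S : Type*} [MeasurableSpace S] {A I : Type*} [Fintype A] [Fintype I]

theorem mp_sample {n : ℕ} (μ : I → Measure S) [∀ i, IsProbabilityMeasure (μ i)]
    (P : A → I → Fin n) (hP : ∀ i, Function.Injective (fun a => P a i)) :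
    MeasurePreserving (fun (ξ : Fin n × I → S) a i => ξ (P a i, i))
      (Measure.pi (fun s : Fin n × I => μ s.2)) (Measure.pi (fun _ : A => Measure.pi μ)) := by
  have h1 := mp_restrict (fun k : A × I => ((P k.1 k.2, k.2) : Fin n × I)) (by
    rintro ⟨a, i⟩ ⟨a', i'⟩ h
    have h2 : i = i' := (Prod.mk.inj h).2
    subst h2
    have h3 : P a i = P a' i := (Prod.mk.inj h).1
    rw [hP i h3]) (fun s : Fin n × I => μ s.2)
  have h2 : MeasurePreserving (MeasurableEquiv.curry A I S)
      (Measure.pi (fun k : A × I => μ k.2)) (Measure.pi (fun _ : A => Measure.pi μ)) := by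
    refine ⟨(MeasurableEquiv.curry A I S).measurable, ?_⟩
    have h3 := Measure.infinitePi_map_curry (fun (_ : A) (i : I) => μ i)
    rw [Measure.infinitePi_eq_pi, Measure.infinitePi_eq_pi] at h3
    rw [h3]
    congr 1
    funext _
    exact Measure.infinitePi_eq_pi _
  exact h2.comp h1

theorem mp_point {n : ℕ} (μ : I → Measure S) [∀ i, IsProbabilityMeasure (μ i)]
    (p : I → Fin n) :
    MeasurePreserving (fun (ξ : Fin n × I → S) i => ξ (p i, i))
      (Measure.pi (fun s : Fin n × I => μ s.2)) (Measure.pi μ) :=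
  mp_restrict (fun i : I => ((p i, i) : Fin n × I)) (fun _ _ h => (Prod.mk.inj h).2)
    (fun s : Fin n × I => μ s.2)

/-- counting coincidences -/
theorem card_coincide {n : ℕ} [DecidableEq A] [DecidableEq I] (a a' : A) (haa : a ≠ a') (i : I) :
    n * (univ.filter (fun c : A → I → Fin n => c a i = c a' i)).card ≤
      Fintype.card (A → I → Fin n) := by
  have h1 : ((univ : Finset (Fin n)) ×ˢ
      (univ.filter (fun c : A → I → Fin n => c a i = c a' i))).card =
      n * (univ.filter (fun c : A → I → Fin n => c a i = c a' i)).card := by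
    rw [card_product, card_univ, Fintype.card_fin]
  rw [← h1, ← card_univ (α := A → I → Fin n)]
  refine card_le_card_of_injOn (fun sc => Function.update sc.2 a (Function.update (sc.2 a) i sc.1))
    (fun _ _ => mem_univ _) ?_
  rintro ⟨s, c⟩ hc ⟨s', c'⟩ hc' h
  have hc1 : c a i = c a' i := (mem_filter.mp (mem_product.mp hc).2).2
  have hc2 : c' a i = c' a' i := (mem_filter.mp (mem_product.mp hc').2).2
  simp only at h
  have h2 : ∀ b, b ≠ a → c b = c' b := by
    intro b hb
    have := congrFun h b
    rwa [Function.update_of_ne hb, Function.update_of_ne hb] at this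
  have h3 := congrFun h a
  rw [Function.update_self, Function.update_self] at h3
  have h4 : s = s' := by
    have := congrFun h3 i
    rwa [Function.update_self, Function.update_self] at this
  have h5 : ∀ j, j ≠ i → c a j = c' a j := by
    intro j hj
    have := congrFun h3 j
    rwa [Function.update_of_ne hj, Function.update_of_ne hj] at this
  have h6 : c a i = c' a i := by
    rw [hc1, hc2, h2 a' haa.symm]
  refine Prod.ext h4 ?_
  funext b j
  by_cases hb : b = a
  · subst hb
    by_cases hj : j = i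
    · subst hj
      exact h6
    · exact h5 j hj
  · show c b j = c' b j
    rw [h2 b hb]

theorem card_bad {n : ℕ} [DecidableEq A] [DecidableEq I] :
    n * (univ.filter (fun c : A → I → Fin n =>
      ¬ ∀ i, Function.Injective (fun a => c a i))).card ≤
      (Fintype.card A * Fintype.card A * Fintype.card I) * Fintype.card (A → I → Fin n) := by
  classical
  have h1 : (univ.filter (fun c : A → I → Fin n => ¬ ∀ i, Function.Injective (fun a => c a i))) ⊆
      (univ : Finset ((A × A) × I)).biUnion (fun t =>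
        if t.1.1 ≠ t.1.2 then univ.filter (fun c : A → I → Fin n => c t.1.1 t.2 = c t.1.2 t.2)
        else ∅) := by
    intro c hc
    have h2 := (mem_filter.mp hc).2
    push Not at h2
    obtain ⟨i, hi⟩ := h2
    rw [Function.Injective] at hi
    push Not at hi
    obtain ⟨a, a', h3, h4⟩ := hi
    refine mem_biUnion.mpr ⟨((a, a'), i), mem_univ _, ?_⟩
    rw [if_pos h4]
    exact mem_filter.mpr ⟨mem_univ _, h3⟩
  have h2 := (card_le_card h1).trans card_biUnion_le
  calc n * (univ.filter (fun c : A → I → Fin n =>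
      ¬ ∀ i, Function.Injective (fun a => c a i))).card
      ≤ n * ∑ t : (A × A) × I, (if t.1.1 ≠ t.1.2 then
        univ.filter (fun c : A → I → Fin n => c t.1.1 t.2 = c t.1.2 t.2) else ∅).card :=
        Nat.mul_le_mul_left _ h2
    _ = ∑ t : (A × A) × I, n * (if t.1.1 ≠ t.1.2 then
        univ.filter (fun c : A → I → Fin n => c t.1.1 t.2 = c t.1.2 t.2) else ∅).card := by
        rw [mul_sum]
    _ ≤ ∑ _t : (A × A) × I, Fintype.card (A → I → Fin n) := by
        refine sum_le_sum fun t _ => ?_
        by_cases ht : t.1.1 ≠ t.1.2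
        · rw [if_pos ht]
          exact card_coincide _ _ ht _
        · rw [if_neg ht]
          simp
    _ = _ := by
        rw [sum_const, card_univ, Fintype.card_prod, Fintype.card_prod, smul_eq_mul]

end

section Det

variable {S R : Type*} [LinearOrder S] [LinearOrder R] {A B I J : Type*} [Fintype A] [DecidableEq A] [Fintype B] [DecidableEq B]
  [Fintype I] [DecidableEq I] [Fintype J] [DecidableEq J]

/-- grid point -/
def pt {S I : Type*} {n : ℕ} (ξ : Fin n × I → S) (p : I → Fin n) : I → S := fun i => ξ (p i, i)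

/-- the deterministic inequality on a sampled grid -/
theorem grid_ineq {n : ℕ} (hn : 0 < n) {W : (I → S) → (J → R) → ℝ} (h0 : ∀ x y, 0 ≤ W x y)
    (hW : ∀ x x' y y', W x y * W x' y' ≤ W (x ⊓ x') (y ⊓ y') * W (x ⊔ x') (y ⊔ y'))
    (E : Finset (A × B)) (ξ : Fin n × I → S) (η : Fin n × J → R) :
    ((((Fintype.card (I → Fin n) : ℝ))⁻¹ * ((Fintype.card (J → Fin n) : ℝ))⁻¹) *
      ∑ p : I → Fin n, ∑ q : J → Fin n, W (pt ξ p) (pt η q)) ^ E.card ≤
      ((Fintype.card (A → I → Fin n) : ℝ))⁻¹ * ((Fintype.card (B → J → Fin n) : ℝ))⁻¹ *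
      ∑ c : (A → I → Fin n) × (B → J → Fin n), ∏ e ∈ E, W (pt ξ (c.1 e.1)) (pt η (c.2 e.2)) := by
  have : Nonempty (Fin n) := ⟨⟨0, hn⟩⟩
  set π : I → Equiv.Perm (Fin n) := fun i => Tuple.sort (fun s => ξ (s, i)) with hπ
  set ρ : J → Equiv.Perm (Fin n) := fun i => Tuple.sort (fun s => η (s, i)) with hρ
  have hπm : ∀ i, Monotone (fun s => ξ (π i s, i)) := fun i =>
    Tuple.monotone_sort (fun s => ξ (s, i))
  have hρm : ∀ i, Monotone (fun s => η (ρ i s, i)) := fun i =>
    Tuple.monotone_sort (fun s => η (s, i))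
  set sx : (I → Fin n) ≃ (I → Fin n) := Equiv.piCongrRight π with hsx
  set sy : (J → Fin n) ≃ (J → Fin n) := Equiv.piCongrRight ρ with hsy
  have einf : ∀ p p', pt ξ (sx (p ⊓ p')) = pt ξ (sx p) ⊓ pt ξ (sx p') := fun p p' => by
    funext i
    exact (hπm i).map_min
  have esup : ∀ p p', pt ξ (sx (p ⊔ p')) = pt ξ (sx p) ⊔ pt ξ (sx p') := fun p p' => by
    funext i
    exact (hπm i).map_max
  have finf : ∀ p p', pt η (sy (p ⊓ p')) = pt η (sy p) ⊓ pt η (sy p') := fun p p' => by
    funext i
    exact (hρm i).map_min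
  have fsup : ∀ p p', pt η (sy (p ⊔ p')) = pt η (sy p) ⊔ pt η (sy p') := fun p p' => by
    funext i
    exact (hρm i).map_max
  have cX : (0 : ℝ) < Fintype.card (I → Fin n) := by exact_mod_cast Fintype.card_pos
  have cY : (0 : ℝ) < Fintype.card (J → Fin n) := by exact_mod_cast Fintype.card_pos
  have key := sidorenko_lattice (A := A) (B := B) (X := I → Fin n) (Y := J → Fin n)
    (μ := fun _ => ((Fintype.card (I → Fin n) : ℝ))⁻¹)
    (ν := fun _ => ((Fintype.card (J → Fin n) : ℝ))⁻¹)
    (W := fun p q => W (pt ξ (sx p)) (pt η (sy q)))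
    (fun _ => by positivity) (fun _ => by positivity) (fun _ _ => h0 _ _)
    (fun _ _ => le_rfl) (fun _ _ => le_rfl)
    (fun x x' y y' => by
      simp only [einf, esup, finf, fsup]
      exact hW _ _ _ _)
    (by rw [sum_const, card_univ, nsmul_eq_mul, mul_inv_cancel₀ cX.ne'])
    (by rw [sum_const, card_univ, nsmul_eq_mul, mul_inv_cancel₀ cY.ne']) E
  have e1 : ∑ x : I → Fin n, ∑ y : J → Fin n, ((Fintype.card (I → Fin n) : ℝ))⁻¹ *
      ((Fintype.card (J → Fin n) : ℝ))⁻¹ * W (pt ξ (sx x)) (pt η (sy y)) =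
      (((Fintype.card (I → Fin n) : ℝ))⁻¹ * ((Fintype.card (J → Fin n) : ℝ))⁻¹) *
      ∑ p : I → Fin n, ∑ q : J → Fin n, W (pt ξ p) (pt η q) := by
    simp only [← mul_sum]
    congr 1
    rw [← Equiv.sum_comp sx (fun p => ∑ q : J → Fin n, W (pt ξ p) (pt η q))]
    refine sum_congr rfl fun p _ => ?_
    exact Equiv.sum_comp sy (fun q => W (pt ξ (sx p)) (pt η q))
  rw [e1] at key
  refine key.trans (le_of_eq ?_)
  have e2 : ∀ c : (A → I → Fin n) × (B → J → Fin n),
      (∏ _a : A, ((Fintype.card (I → Fin n) : ℝ))⁻¹) *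
      (∏ _b : B, ((Fintype.card (J → Fin n) : ℝ))⁻¹) *
      ∏ e ∈ E, W (pt ξ (sx (c.1 e.1))) (pt η (sy (c.2 e.2))) =
      ((Fintype.card (A → I → Fin n) : ℝ))⁻¹ * ((Fintype.card (B → J → Fin n) : ℝ))⁻¹ *
      ∏ e ∈ E, W (pt ξ (sx (c.1 e.1))) (pt η (sy (c.2 e.2))) := by
    intro c
    congr 2
    · rw [prod_const, card_univ, Fintype.card_fun (α := A), Nat.cast_pow, inv_pow]
    · rw [prod_const, card_univ, Fintype.card_fun (α := B), Nat.cast_pow, inv_pow]
  rw [sum_congr rfl fun c _ => e2 c, ← mul_sum]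
  congr 1
  exact Equiv.sum_comp (Equiv.prodCongr (Equiv.arrowCongr (Equiv.refl A) sx)
    (Equiv.arrowCongr (Equiv.refl B) sy))
    (fun c => ∏ e ∈ E, W (pt ξ (c.1 e.1)) (pt η (c.2 e.2)))

end Det

end Vale.Agent.P050
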